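import Vale.Agent.P297.H521.RulConst

/-!
The lines by a point of a nonsingular quadric surface.
-/

set_option linter.unusedSectionVars false
set_option linter.unusedSimpArgs false
set_option linter.style.haveILetI false

open Matrix

namespace Vale.Agent.P297.C8

section

variable {k : Type} [Field k] {M : Matrix (Fin 4) (Fin 4) k} {w : k} {z u v : Fin 4 → k}

/-- The contraction of the equations of the ruling with the first vector. -/
theorem Rul.contract (h : Rul M w z u) :
    (z ⬝ᵥ M.mulVec u) • M.mulVec z = (z ⬝ᵥ M.mulVec z) • M.mulVec u := by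
  obtain ⟨h0, h1, h2, h3, h4, h5⟩ := rul_iff.1 h
  set a := M.mulVec z
  set b := M.mulVec u
  funext i
  simp only [dotProduct, Fin.sum_univ_four, Pi.smul_apply, smul_eq_mul]
  fin_cases i
  · simp only [Fin.zero_eta]
    linear_combination z 1 * h0 + z 2 * h1 + z 3 * h2
  · simp only [Fin.mk_one]
    linear_combination (-z 0) * h0 + z 2 * h3 + z 3 * h4
  · simp only [Fin.reduceFinMk]
    linear_combination (-z 0) * h1 - z 1 * h3 + z 3 * h5
  · simp only [Fin.reduceFinMk]
    linear_combination (-z 0) * h2 - z 1 * h4 - z 2 * h5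

/-- The vectors are independent. -/
def Ind2 (z u : Fin 4 → k) : Prop := ∀ a b : k, a • z + b • u = 0 → a = 0 ∧ b = 0

theorem Ind2.symm (h : Ind2 z u) : Ind2 u z := fun a b hab => (h b a (by rw [add_comm]; exact hab)).symm

theorem Rul.iso_left (hM : M.det ≠ 0) (h : Rul M w z u) (hi : Ind2 z u) :
    z ⬝ᵥ M.mulVec z = 0 ∧ z ⬝ᵥ M.mulVec u = 0 := by
  have h1 := h.contract
  have h2 : M.mulVec ((z ⬝ᵥ M.mulVec u) • z + (-(z ⬝ᵥ M.mulVec z)) • u) = 0 := by
    rw [mulVec_add, mulVec_smul, mulVec_smul, h1, neg_smul, add_neg_cancel]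
  have h3 := Matrix.eq_zero_of_mulVec_eq_zero hM h2
  obtain ⟨h4, h5⟩ := hi _ _ h3
  exact ⟨neg_eq_zero.1 h5, h4⟩

/-- Two independent vectors on a line of a ruling are isotropic and orthogonal. -/
theorem Rul.iso2 (hM : M.det ≠ 0) (h : Rul M w z u) (hi : Ind2 z u) :
    z ⬝ᵥ M.mulVec z = 0 ∧ z ⬝ᵥ M.mulVec u = 0 ∧ u ⬝ᵥ M.mulVec u = 0 :=
  ⟨(h.iso_left hM hi).1, (h.iso_left hM hi).2, (h.symm.iso_left hM hi.symm).1⟩

/-- Lines of opposite rulings have only one common point. -/
theorem Rul.opp [CharZero k] (hw : w ≠ 0) (h : Rul M w z u) (h' : Rul M (-w) z u) :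
    ¬ Ind2 z u := by
  intro hi
  have h1 : ws z u = 0 := by
    unfold Rul at h h'
    rw [h, neg_smul] at h'
    have h2 : (2 * w) • ws z u = 0 := by
      rw [two_mul, add_smul]
      nth_rewrite 1 [h']
      rw [neg_add_cancel]
    rcases smul_eq_zero.1 h2 with h3 | h3
    · exact absurd h3 (mul_ne_zero two_ne_zero hw)
    · exact h3
  have e5 := congrFun h1 0
  have e4 := congrFun h1 1
  have e3 := congrFun h1 2
  have e2 := congrFun h1 3
  have e1 := congrFun h1 4
  have e0 := congrFun h1 5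
  simp only [ws, Matrix.cons_val, Pi.zero_apply] at e0 e1 e2 e3 e4 e5
  have hz : z ≠ 0 := by
    rintro rfl
    have := (hi 1 0 (by simp)).1
    exact one_ne_zero this
  obtain ⟨j, hj⟩ := Function.ne_iff.1 hz
  have hij : ∀ i, u j * z i = z j * u i := by
    intro i
    fin_cases i <;> fin_cases j <;>
      first
      | (simp only [Fin.zero_eta, Fin.mk_one, Fin.reduceFinMk]; ring1)
      | (simp only [Fin.zero_eta, Fin.mk_one, Fin.reduceFinMk]; linear_combination e0)
      | (simp only [Fin.zero_eta, Fin.mk_one, Fin.reduceFinMk]; linear_combination -e0)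
      | (simp only [Fin.zero_eta, Fin.mk_one, Fin.reduceFinMk]; linear_combination e1)
      | (simp only [Fin.zero_eta, Fin.mk_one, Fin.reduceFinMk]; linear_combination -e1)
      | (simp only [Fin.zero_eta, Fin.mk_one, Fin.reduceFinMk]; linear_combination e2)
      | (simp only [Fin.zero_eta, Fin.mk_one, Fin.reduceFinMk]; linear_combination -e2)
      | (simp only [Fin.zero_eta, Fin.mk_one, Fin.reduceFinMk]; linear_combination e3)
      | (simp only [Fin.zero_eta, Fin.mk_one, Fin.reduceFinMk]; linear_combination -e3)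
      | (simp only [Fin.zero_eta, Fin.mk_one, Fin.reduceFinMk]; linear_combination e4)
      | (simp only [Fin.zero_eta, Fin.mk_one, Fin.reduceFinMk]; linear_combination -e4)
      | (simp only [Fin.zero_eta, Fin.mk_one, Fin.reduceFinMk]; linear_combination e5)
      | (simp only [Fin.zero_eta, Fin.mk_one, Fin.reduceFinMk]; linear_combination -e5)
  have h6 := (hi (u j) (- z j) (by
    funext i
    simp only [Pi.add_apply, Pi.smul_apply, smul_eq_mul, Pi.zero_apply]
    rw [hij i]
    ring)).2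
  exact hj (neg_eq_zero.1 h6)

end

section normal

variable {k : Type} [Field k] [CharZero k]

/-- The line by a point in normal coordinates, as a span. -/
theorem rul_J_span {z : Fin 4 → k} (hz : z ≠ 0) (hi : z 0 * z 3 = z 1 * z 2) :
    ∃ s₀ s₁ t₀ t₁ : k, (s₀ ≠ 0 ∨ s₁ ≠ 0) ∧ z = ![s₀ * t₀, s₀ * t₁, s₁ * t₀, s₁ * t₁] ∧
      ∀ u, Rul (JJ k) 1 z u ↔ ∃ a b, u = ![s₀ * a, s₀ * b, s₁ * a, s₁ * b] := by
  have key : ∀ s₀ s₁ t₀ t₁ : k, (s₀ ≠ 0 ∨ s₁ ≠ 0) → (t₀ ≠ 0 ∨ t₁ ≠ 0) →
      z = ![s₀ * t₀, s₀ * t₁, s₁ * t₀, s₁ * t₁] →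
      ∀ u, Rul (JJ k) 1 z u ↔ ∃ a b, u = ![s₀ * a, s₀ * b, s₁ * a, s₁ * b] := by
    rintro s₀ s₁ t₀ t₁ hs ht rfl u
    rw [rul_J]
    simp only [Matrix.cons_val]
    constructor
    · rintro ⟨h1, h2, h3⟩
      have k1 : s₀ * u 2 = s₁ * u 0 := by
        rcases ht with ht | ht
        · apply mul_left_cancel₀ ht
          linear_combination h1
        · apply mul_left_cancel₀ (mul_ne_zero ht ht)
          linear_combination t₁ * h3 - t₀ * h2
      have k2 : s₀ * u 3 = s₁ * u 1 := by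
        rcases ht with ht | ht
        · apply mul_left_cancel₀ ht
          linear_combination h3 - t₁ * k1
        · apply mul_left_cancel₀ ht
          linear_combination h2
      rcases hs with hs | hs
      · refine ⟨u 0 / s₀, u 1 / s₀, ?_⟩
        funext i
        fin_cases i
        · simp only [Fin.zero_eta, Matrix.cons_val]
          field_simp
        · simp only [Fin.mk_one, Matrix.cons_val]
          field_simp
        · simp only [Fin.reduceFinMk, Matrix.cons_val]
          field_simp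
          linear_combination k1
        · simp only [Fin.reduceFinMk, Matrix.cons_val]
          field_simp
          linear_combination k2
      · refine ⟨u 2 / s₁, u 3 / s₁, ?_⟩
        funext i
        fin_cases i
        · simp only [Fin.zero_eta, Matrix.cons_val]
          field_simp
          linear_combination -k1
        · simp only [Fin.mk_one, Matrix.cons_val]
          field_simp
          linear_combination -k2
        · simp only [Fin.reduceFinMk, Matrix.cons_val]
          field_simp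
        · simp only [Fin.reduceFinMk, Matrix.cons_val]
          field_simp
    · rintro ⟨a, b, rfl⟩
      simp only [Matrix.cons_val]
      refine ⟨by ring, by ring, by ring⟩
  by_cases hc : z 0 = 0 ∧ z 2 = 0
  · obtain ⟨h0, h2⟩ := hc
    have h13 : z 1 ≠ 0 ∨ z 3 ≠ 0 := by
      by_contra hcon
      push Not at hcon
      apply hz
      funext i
      fin_cases i
      · exact h0
      · exact hcon.1
      · exact h2
      · exact hcon.2
    have e : z = ![z 1 * 0, z 1 * 1, z 3 * 0, z 3 * 1] := by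
      funext i
      fin_cases i
      · simpa using h0
      · simp
      · simpa using h2
      · simp
    exact ⟨z 1, z 3, 0, 1, h13, e, key _ _ _ _ h13 (Or.inr one_ne_zero) e⟩
  · have h02 : z 0 ≠ 0 ∨ z 2 ≠ 0 := by
      by_contra hcon
      push Not at hcon
      exact hc hcon
    rcases h02 with h0 | h2
    · have e : z = ![z 0 * 1, z 0 * (z 1 / z 0), z 2 * 1, z 2 * (z 1 / z 0)] := by
        funext i
        fin_cases i
        · simp
        · simp only [Fin.mk_one, Matrix.cons_val]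
          field_simp
        · simp
        · simp only [Fin.reduceFinMk, Matrix.cons_val]
          field_simp
          linear_combination hi
      exact ⟨z 0, z 2, 1, z 1 / z 0, Or.inl h0, e, key _ _ _ _ (Or.inl h0)
        (Or.inl one_ne_zero) e⟩
    · have e : z = ![z 0 * 1, z 0 * (z 3 / z 2), z 2 * 1, z 2 * (z 3 / z 2)] := by
        funext i
        fin_cases i
        · simp
        · simp only [Fin.mk_one, Matrix.cons_val]
          field_simp
          linear_combination -hi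
        · simp
        · simp only [Fin.reduceFinMk, Matrix.cons_val]
          field_simp
      exact ⟨z 0, z 2, 1, z 3 / z 2, Or.inr h2, e, key _ _ _ _ (Or.inr h2)
        (Or.inl one_ne_zero) e⟩

/-- Two isotropic orthogonal vectors are on a line of one of the rulings. -/
theorem rul_J_or {z u : Fin 4 → k} (h1 : z 0 * z 3 = z 1 * z 2) (h2 : u 0 * u 3 = u 1 * u 2)
    (h3 : z 0 * u 3 + z 3 * u 0 = z 1 * u 2 + z 2 * u 1) :
    Rul (JJ k) 1 z u ∨ Rul (JJ k) (-1) z u := by
  have key : ∀ a ∈ ({z 0 * u 2 - z 2 * u 0, z 1 * u 3 - z 3 * u 1,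
      z 0 * u 3 - z 3 * u 0 + z 1 * u 2 - z 2 * u 1} : Set k),
      ∀ b ∈ ({z 0 * u 1 - z 1 * u 0, z 2 * u 3 - z 3 * u 2,
      z 0 * u 3 - z 3 * u 0 - z 1 * u 2 + z 2 * u 1} : Set k), a * b = 0 := by
    rintro a (rfl | rfl | rfl) b (rfl | rfl | rfl)
    · linear_combination (z 0 * u 0) * h3 - z 0 ^ 2 * h2 - u 0 ^ 2 * h1
    · linear_combination (z 2 * u 2) * h3 - z 2 ^ 2 * h2 - u 2 ^ 2 * h1
    · linear_combination (z 0 * u 2 + z 2 * u 0) * h3 - 2 * z 0 * z 2 * h2 -
        2 * u 0 * u 2 * h1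
    · linear_combination (z 1 * u 1) * h3 - z 1 ^ 2 * h2 - u 1 ^ 2 * h1
    · linear_combination (z 3 * u 3) * h3 - z 3 ^ 2 * h2 - u 3 ^ 2 * h1
    · linear_combination (z 1 * u 3 + z 3 * u 1) * h3 - 2 * z 1 * z 3 * h2 -
        2 * u 1 * u 3 * h1
    · linear_combination (z 0 * u 1 + z 1 * u 0) * h3 - 2 * z 0 * z 1 * h2 -
        2 * u 0 * u 1 * h1
    · linear_combination (z 2 * u 3 + z 3 * u 2) * h3 - 2 * z 2 * z 3 * h2 -
        2 * u 2 * u 3 * h1
    · linear_combination (z 0 * u 3 + z 1 * u 2 + z 2 * u 1 + z 3 * u 0) * h3 -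
        2 * (z 0 * z 3 + z 1 * z 2) * h2 - 2 * (u 0 * u 3 + u 1 * u 2) * h1
  by_cases hc : z 0 * u 2 - z 2 * u 0 = 0 ∧ z 1 * u 3 - z 3 * u 1 = 0 ∧
      z 0 * u 3 - z 3 * u 0 + z 1 * u 2 - z 2 * u 1 = 0
  · left
    rw [rul_J]
    exact ⟨sub_eq_zero.1 hc.1, sub_eq_zero.1 hc.2.1, hc.2.2⟩
  · right
    have h4 : ∃ a ∈ ({z 0 * u 2 - z 2 * u 0, z 1 * u 3 - z 3 * u 1,
        z 0 * u 3 - z 3 * u 0 + z 1 * u 2 - z 2 * u 1} : Set k), a ≠ 0 := by
      by_contra hcon
      push Not at hcon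
      exact hc ⟨hcon _ (by simp), hcon _ (by simp), hcon _ (by simp)⟩
    obtain ⟨a, ha, ha0⟩ := h4
    have h5 := fun b hb => (mul_eq_zero.1 (key a ha b hb)).resolve_left ha0
    have e1 := h5 (z 0 * u 1 - z 1 * u 0) (by simp)
    have e2 := h5 (z 2 * u 3 - z 3 * u 2) (by simp)
    have e3 := h5 (z 0 * u 3 - z 3 * u 0 - z 1 * u 2 + z 2 * u 1) (by simp)
    rw [rul_iff]
    simp only [JJ_mulVec, Matrix.cons_val]
    refine ⟨?_, ?_, ?_, ?_, ?_, ?_⟩
    · linear_combination 2 * e2
    · ring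
    · linear_combination -e3
    · linear_combination e3
    · ring
    · linear_combination 2 * e1

end normal

section

variable {k : Type} [Field k] [IsAlgClosed k] [CharZero k] {M : Matrix (Fin 4) (Fin 4) k} {w : k}
  {z u v : Fin 4 → k}

theorem iso_normal {P : Matrix (Fin 4) (Fin 4) k} (hP : Pᵀ * JJ k * P = M) (z u : Fin 4 → k) :
    z ⬝ᵥ M.mulVec u = (P.mulVec z) 0 * (P.mulVec u) 3 + (P.mulVec z) 3 * (P.mulVec u) 0 -
      (P.mulVec z) 1 * (P.mulVec u) 2 - (P.mulVec z) 2 * (P.mulVec u) 1 := by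
  rw [← hP, ← mulVec_mulVec, ← mulVec_mulVec, dotProduct_mulVec, vecMul_transpose, JJ_mulVec]
  simp only [dotProduct, Fin.sum_univ_four, Matrix.cons_val]
  ring

/-- **The line by a point.** -/
theorem exists_span (hM : M.IsSymm) (hw : w ^ 2 = M.det) (hw0 : w ≠ 0) (hz : z ≠ 0)
    (hzz : z ⬝ᵥ M.mulVec z = 0) : ∃ e f : Fin 4 → k, Ind2 e f ∧ (∃ s t : k, z = s • e + t • f) ∧
      ∀ u, Rul M w z u ↔ ∃ a b : k, u = a • e + b • f := by
  obtain ⟨P, hP, hPw⟩ := exists_normal hM hw hw0
  have hdet : P.det ≠ 0 := by rwa [hPw]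
  have hu : IsUnit P.det := isUnit_iff_ne_zero.2 hdet
  have hinv : ∀ x : Fin 4 → k, P⁻¹.mulVec (P.mulVec x) = x := fun x => by
    rw [mulVec_mulVec, nonsing_inv_mul P hu, one_mulVec]
  have hinv' : ∀ x : Fin 4 → k, P.mulVec (P⁻¹.mulVec x) = x := fun x => by
    rw [mulVec_mulVec, mul_nonsing_inv P hu, one_mulVec]
  have hz' : P.mulVec z ≠ 0 := fun h0 => hz (Matrix.eq_zero_of_mulVec_eq_zero hdet h0)
  have hi : (P.mulVec z) 0 * (P.mulVec z) 3 = (P.mulVec z) 1 * (P.mulVec z) 2 := by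
    have h1 := iso_normal hP z z
    rw [hzz] at h1
    apply mul_left_cancel₀ (two_ne_zero (α := k))
    linear_combination -h1
  obtain ⟨s₀, s₁, t₀, t₁, hs, e, hspan⟩ := rul_J_span hz' hi
  have hab : ∀ a b : k, (![s₀ * a, s₀ * b, s₁ * a, s₁ * b] : Fin 4 → k) =
      a • ![s₀, 0, s₁, 0] + b • ![0, s₀, 0, s₁] := by
    intro a b
    funext i
    fin_cases i <;> simp [mul_comm]
  refine ⟨P⁻¹.mulVec ![s₀, 0, s₁, 0], P⁻¹.mulVec ![0, s₀, 0, s₁], ?_, ⟨t₀, t₁, ?_⟩, ?_⟩
  · intro a b h0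
    have h1 := congrArg P.mulVec h0
    rw [mulVec_add, mulVec_smul, mulVec_smul, hinv', hinv', mulVec_zero, ← hab] at h1
    have e0 := congrFun h1 0
    have e1 := congrFun h1 1
    have e2 := congrFun h1 2
    have e3 := congrFun h1 3
    simp only [Matrix.cons_val, Pi.zero_apply, mul_eq_zero] at e0 e1 e2 e3
    rcases hs with hs | hs
    · exact ⟨e0.resolve_left hs, e1.resolve_left hs⟩
    · exact ⟨e2.resolve_left hs, e3.resolve_left hs⟩
  · rw [← mulVec_smul, ← mulVec_smul, ← mulVec_add, ← hab, ← e, hinv]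
  · intro u
    rw [rul_congr_iff hP (w' := 1) (by rw [one_mul, hPw]) hdet, hspan]
    constructor
    · rintro ⟨a, b, h⟩
      refine ⟨a, b, ?_⟩
      rw [← mulVec_smul, ← mulVec_smul, ← mulVec_add, ← hab, ← h, hinv]
    · rintro ⟨a, b, h⟩
      refine ⟨a, b, ?_⟩
      rw [h, mulVec_add, mulVec_smul, mulVec_smul, hinv', hinv', hab]

/-- The direction of the line by a point. -/
theorem exists_dir (hM : M.IsSymm) (hw : w ^ 2 = M.det) (hw0 : w ≠ 0) (hz : z 0 = 1)
    (hzz : z ⬝ᵥ M.mulVec z = 0) : ∃ r : Fin 4 → k, r ≠ 0 ∧ r 0 = 0 ∧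
      ∀ u, Rul M w z u ↔ ∃ a b : k, u = a • z + b • r := by
  obtain ⟨e, f, hef, ⟨s, t, hst⟩, hspan⟩ := exists_span hM hw hw0 (z := z) (by
    rintro rfl
    exact zero_ne_one hz) hzz
  have h0 : s * e 0 + t * f 0 = 1 := by
    rw [← hz, hst]
    rfl
  refine ⟨f 0 • e + (- e 0) • f, ?_, ?_, ?_⟩
  · intro h1
    obtain ⟨h2, h3⟩ := hef _ _ h1
    rw [h2, neg_eq_zero.1 h3] at h0
    simp at h0
  · simp only [Pi.add_apply, Pi.smul_apply, smul_eq_mul]
    ring
  · intro u
    rw [hspan]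
    constructor
    · rintro ⟨a, b, rfl⟩
      refine ⟨a * e 0 + b * f 0, a * t - b * s, ?_⟩
      rw [hst]
      funext i
      simp only [Pi.add_apply, Pi.smul_apply, smul_eq_mul]
      linear_combination (-(a * e i + b * f i)) * h0
    · rintro ⟨a, b, rfl⟩
      refine ⟨a * s + b * f 0, a * t - b * e 0, ?_⟩
      rw [hst]
      funext i
      simp only [Pi.add_apply, Pi.smul_apply, smul_eq_mul]
      ring

/-- Two vectors on the line by a third one. -/
theorem Rul.trans (hM : M.IsSymm) (hw : w ^ 2 = M.det) (hw0 : w ≠ 0) (hz : z ≠ 0)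
    (hzz : z ⬝ᵥ M.mulVec z = 0) (h : Rul M w z u) (h' : Rul M w z v) : Rul M w u v := by
  obtain ⟨e, f, hef, ⟨s, t, hst⟩, hspan⟩ := exists_span hM hw hw0 hz hzz
  have key : Rul M w e f := by
    have he : Rul M w z e := (hspan e).2 ⟨1, 0, by simp⟩
    have hf : Rul M w z f := (hspan f).2 ⟨0, 1, by simp⟩
    rw [hst] at he hf
    have hst0 : s ≠ 0 ∨ t ≠ 0 := by
      by_contra hcon
      push Not at hcon
      apply hz
      rw [hst, hcon.1, hcon.2]
      simp
    rcases hst0 with hs | ht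
    · have h1 := hf.add_left ((Rul.self M w f).smul_left (-t))
      have h2 : s • e + t • f + -t • f = s • e := by
        rw [neg_smul, add_neg_cancel_right]
      rw [h2] at h1
      have h3 := h1.smul_left s⁻¹
      rwa [smul_smul, inv_mul_cancel₀ hs, one_smul] at h3
    · have h1 := he.add_left ((Rul.self M w e).smul_left (-s))
      have h2 : s • e + t • f + -s • e = t • f := by
        rw [neg_smul, add_right_comm, add_neg_cancel, zero_add]
      rw [h2] at h1
      have h3 := h1.smul_left t⁻¹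
      rw [smul_smul, inv_mul_cancel₀ ht, one_smul] at h3
      exact h3.symm
  obtain ⟨a, b, rfl⟩ := (hspan u).1 h
  obtain ⟨c, d, rfl⟩ := (hspan v).1 h'
  have h1 : ∀ c d : k, Rul M w e (c • e + d • f) := fun c d =>
    ((Rul.self M w e).smul c).add (key.smul d)
  have h2 : ∀ c d : k, Rul M w f (c • e + d • f) := fun c d =>
    (key.symm.smul c).add ((Rul.self M w f).smul d)
  exact ((h1 c d).smul_left a).add_left ((h2 c d).smul_left b)

/-- The line by a nonzero vector on the line by `z` is the same. -/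
theorem Rul.lin_eq (hM : M.IsSymm) (hw : w ^ 2 = M.det) (hw0 : w ≠ 0) (hz : z ≠ 0) (hu : u ≠ 0)
    (hzz : z ⬝ᵥ M.mulVec z = 0) (huu : u ⬝ᵥ M.mulVec u = 0) (h : Rul M w z u) (v : Fin 4 → k) :
    Rul M w z v ↔ Rul M w u v :=
  ⟨fun h' => Rul.trans hM hw hw0 hz hzz h h', fun h' => Rul.trans hM hw hw0 hu huu h.symm h'⟩

/-- Two isotropic orthogonal vectors are on a line of one of the rulings. -/
theorem rul_or (hM : M.IsSymm) (hw : w ^ 2 = M.det) (hw0 : w ≠ 0) (h1 : z ⬝ᵥ M.mulVec z = 0)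
    (h2 : z ⬝ᵥ M.mulVec u = 0) (h3 : u ⬝ᵥ M.mulVec u = 0) : Rul M w z u ∨ Rul M (-w) z u := by
  obtain ⟨P, hP, hPw⟩ := exists_normal hM hw hw0
  have hdet : P.det ≠ 0 := by rwa [hPw]
  rw [rul_congr_iff hP (w' := 1) (by rw [one_mul, hPw]) hdet,
    rul_congr_iff hP (w' := -1) (w := -w) (by rw [← hPw]; ring) hdet]
  rw [iso_normal hP] at h1 h2 h3
  refine rul_J_or ?_ ?_ ?_
  · apply mul_left_cancel₀ (two_ne_zero (α := k))
    linear_combination h1
  · apply mul_left_cancel₀ (two_ne_zero (α := k))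
    linear_combination h3
  · linear_combination h2

end

end Vale.Agent.P297.C8
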