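import Vale.Agent.P297.H637.PsiDefs
import Vale.Agent.P297.H521.RulL

/-!
The cycle of the points of the octic on a line of a ruling, over a line of the plane: automorphisms,
and independence of the line.
-/

set_option linter.unusedSectionVars false
set_option linter.style.haveILetI false

open IntermediateField Polynomial Matrix

namespace Vale.Agent.P297.C8.R1

open Vale.Agent.P297 Vale.Agent.P297.Gen Vale.Agent.P297.H839 Vale.Agent.P297.H516
open Vale.Agent.P297.H729 Vale.Agent.P297.H72 Vale.Agent.P297.H521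

section

variable {K N N' : Type} [Field K] [Algebra ℂ K] [Field N] [Algebra ℂ N] [Field N'] [Algebra ℂ N']
  {Q : Web} {c : Fin 4 → K}

/-- Automorphisms act on points (generic or not). -/
theorem map_pt_equiv (hc : IsFF Q c) (σ : N ≃ₐ[ℂ] N') (o : Fin 4 → N) :
    Finsupp.mapDomain (fun φ : K →ₐ[ℂ] N => σ.toAlgHom.comp φ) (pt c o) =
      pt c (fun j => σ (o j)) := by
  classical
  by_cases h : ∃ φ : K →ₐ[ℂ] N, ∀ j, φ (c j) = o j / o 0
  · obtain ⟨φ, hφ⟩ := h
    rw [pt_eq hc hφ, Finsupp.mapDomain_single]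
    refine (pt_eq hc fun j => ?_).symm
    change σ (φ (c j)) = _
    rw [hφ, map_div₀]
  · have h' : ¬ ∃ φ : K →ₐ[ℂ] N', ∀ j, φ (c j) = σ (o j) / σ (o 0) := by
      rintro ⟨φ, hφ⟩
      apply h
      refine ⟨σ.symm.toAlgHom.comp φ, fun j => ?_⟩
      change σ.symm (φ (c j)) = _
      rw [hφ, map_div₀, AlgEquiv.symm_apply_apply, AlgEquiv.symm_apply_apply]
    unfold pt
    rw [dif_neg h, dif_neg h', Finsupp.mapDomain_zero]

theorem map_lam (σ : N →ₐ[ℂ] N') (x y : N) (i : Fin 4) :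
    σ (lam x y i) = lam (σ x) (σ y) i := by
  fin_cases i
  · exact map_one σ
  · simp only [lam, Fin.mk_one, Matrix.cons_val, map_div₀, map_add, map_inv₀, map_ofNat]
  · simp only [lam, Fin.reduceFinMk, Matrix.cons_val, map_div₀, map_add, map_inv₀, map_ofNat]
  · simp only [lam, Fin.reduceFinMk, Matrix.cons_val, map_div₀, map_add, map_mul, map_inv₀,
      map_ofNat]

theorem map_mv (σ : N →ₐ[ℂ] N') (x y : N) (i : Fin 3) :
    σ (mv x y i) = mv (σ x) (σ y) i := by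
  fin_cases i
  · simp [mv]
  · simp [mv]
  · simp [mv]

theorem map_MM (Q : Web) (σ : N →ₐ[ℂ] N') (x y : N) :
    (MM Q x y).map σ = MM Q (σ x) (σ y) := by
  ext a b
  simp only [MM, Matrix.map_apply, map_sum, map_mul, map_lam, AlgHom.commutes]

/-- The points of the octic on the line of the ruling `w` through `z`, over the line `m`. -/
def PtSet (Q : Web) (x y w : N) (z : Fin 4 → N) : Set (Fin 4 → N) :=
  {o | o 0 = 1 ∧ st (qq Q o) = 0 ∧ (∑ i, mv x y i * vy (qq Q o) i) = 0 ∧ Rul (MM Q x y) w z o}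

/-- The sum of these points. -/
noncomputable def Psi (Q : Web) (c : Fin 4 → K) (x y w : N) (z : Fin 4 → N) :
    (K →ₐ[ℂ] N) →₀ ℤ :=
  ∑ᶠ o ∈ PtSet Q x y w z, pt c o

/-- The condition on the points that does not involve the ruling. -/
def OnC (Q : Web) (x y : N) (o : Fin 4 → N) : Prop :=
  o 0 = 1 ∧ st (qq Q o) = 0 ∧ (∑ i, mv x y i * vy (qq Q o) i) = 0

theorem mem_PtSet {x y w : N} {z o : Fin 4 → N} :
    o ∈ PtSet Q x y w z ↔ OnC Q x y o ∧ Rul (MM Q x y) w z o := by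
  simp only [PtSet, OnC, Set.mem_ofPred_eq, and_assoc]

theorem OnC.map (σ : N →ₐ[ℂ] N') {x y : N} {o : Fin 4 → N} (h : OnC Q x y o) :
    OnC Q (σ x) (σ y) (fun j => σ (o j)) := by
  obtain ⟨h0, h1, h2⟩ := h
  refine ⟨(congrArg σ h0).trans (map_one σ), by rw [← map_st_qq, h1, map_zero], ?_⟩
  have h3 := congrArg σ h2
  rw [map_sum, map_zero] at h3
  rw [← h3]
  refine Finset.sum_congr rfl fun i _ => ?_
  rw [map_mul, map_mv, map_vy, map_qq']

/-- The cycle cut out on a set. -/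
noncomputable def cut (Q : Web) (c : Fin 4 → K) (x y : N) (L : Set (Fin 4 → N)) :
    (K →ₐ[ℂ] N) →₀ ℤ :=
  ∑ᶠ o ∈ {o | OnC Q x y o} ∩ L, pt c o

theorem Psi_eq_cut (Q : Web) (c : Fin 4 → K) (x y w : N) (z : Fin 4 → N) :
    Psi Q c x y w z = cut Q c x y {u | Rul (MM Q x y) w z u} := by
  have h : PtSet Q x y w z = {o | OnC Q x y o} ∩ {u | Rul (MM Q x y) w z u} :=
    Set.ext fun _ => mem_PtSet
  unfold Psi cut
  rw [h]

theorem map_cut (hc : IsFF Q c) (σ : N ≃ₐ[ℂ] N') (x y : N) (L : Set (Fin 4 → N)) :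
    Finsupp.mapDomain (fun φ : K →ₐ[ℂ] N => σ.toAlgHom.comp φ) (cut Q c x y L) =
      cut Q c (σ x) (σ y) ((fun u j => σ (u j)) '' L) := by
  have hinj : Function.Injective (fun φ : K →ₐ[ℂ] N => σ.toAlgHom.comp φ) := by
    intro φ ψ h
    apply AlgHom.ext
    intro k
    have h1 := congrArg (fun θ : K →ₐ[ℂ] N' => θ k) h
    exact σ.injective h1
  have hset : {o | OnC Q (σ x) (σ y) o} ∩ ((fun (u : Fin 4 → N) j => σ (u j)) '' L) =
      (fun (u : Fin 4 → N) j => σ (u j)) '' ({o | OnC Q x y o} ∩ L) := by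
    ext o
    constructor
    · rintro ⟨h, u, hu, rfl⟩
      refine ⟨u, ⟨?_, hu⟩, rfl⟩
      have h' : OnC Q (σ x) (σ y) (fun j => σ (u j)) := h
      have h1 := OnC.map σ.symm.toAlgHom h'
      simpa using h1
    · rintro ⟨u, ⟨h, hu⟩, rfl⟩
      exact ⟨OnC.map σ.toAlgHom h, u, hu, rfl⟩
  have hg : Function.Injective (fun (u : Fin 4 → N) j => σ (u j)) := by
    intro u v h
    funext j
    exact σ.injective (congrFun h j)
  unfold cut
  rw [hset, finsum_mem_image hg.injOn]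
  have h1 : ∀ a, Finsupp.mapDomain (fun φ : K →ₐ[ℂ] N => σ.toAlgHom.comp φ) a =
      Finsupp.mapDomain.addMonoidHom (fun φ : K →ₐ[ℂ] N => σ.toAlgHom.comp φ) (M := ℤ) a :=
    fun _ => rfl
  have h2 : Function.Injective
      (Finsupp.mapDomain.addMonoidHom (fun φ : K →ₐ[ℂ] N => σ.toAlgHom.comp φ) (M := ℤ)) :=
    Finsupp.mapDomain_injective hinj
  rw [h1, AddMonoidHom.map_finsum_of_injective _ h2]
  refine finsum_congr fun o => ?_
  rw [AddMonoidHom.map_finsum_of_injective _ h2]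
  refine finsum_congr fun _ => ?_
  rw [← h1, map_pt_equiv hc]

theorem rul_image (σ : N ≃ₐ[ℂ] N') (x y w : N) (z : Fin 4 → N) :
    (fun (u : Fin 4 → N) j => σ (u j)) '' {u | Rul (MM Q x y) w z u} =
      {u | Rul (MM Q (σ x) (σ y)) (σ w) (fun j => σ (z j)) u} := by
  ext u
  constructor
  · rintro ⟨u, hu, rfl⟩
    have h1 := Rul.map σ.toAlgHom hu
    rw [map_MM] at h1
    exact h1
  · intro h
    refine ⟨fun j => σ.symm (u j), ?_, ?_⟩
    · have h' : Rul (MM Q (σ x) (σ y)) (σ w) (fun j => σ (z j)) u := h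
      have h1 := Rul.map σ.symm.toAlgHom h'
      rw [map_MM] at h1
      simpa using h1
    · funext j
      exact σ.apply_symm_apply _

/-- Automorphisms act on the cycles. -/
theorem map_Psi (hc : IsFF Q c) (σ : N ≃ₐ[ℂ] N') (x y w : N) (z : Fin 4 → N) :
    Finsupp.mapDomain (fun φ : K →ₐ[ℂ] N => σ.toAlgHom.comp φ) (Psi Q c x y w z) =
      Psi Q c (σ x) (σ y) (σ w) (fun j => σ (z j)) := by
  rw [Psi_eq_cut, Psi_eq_cut, map_cut hc, rul_image]

end

section

variable {K N : Type} [Field K] [Algebra ℂ K] [Field N] [Algebra ℂ N] [IsAlgClosed N]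
  {Q : Web} {c : Fin 4 → K} {m : ℤ}

theorem MM_isSymm' (hQ : ∀ i, (Q i).IsSymm) (x y : N) : (MM Q x y).IsSymm := by
  refine Matrix.IsSymm.ext fun a b => ?_
  simp only [MM]
  refine Finset.sum_congr rfl fun i _ => ?_
  rw [(hQ i).apply]

theorem lam_mem {F : IntermediateField ℂ N} {x y : N} (hx : x ∈ F) (hy : y ∈ F) (i : Fin 4) :
    lam x y i ∈ F := by
  have h2 : (2 : N) ∈ F := by
    have h := F.algebraMap_mem 2
    rwa [map_ofNat] at h
  fin_cases i
  · exact one_mem F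
  · exact div_mem (add_mem hx (inv_mem hx)) h2
  · exact div_mem (add_mem hy (inv_mem hy)) h2
  · exact div_mem (add_mem (mul_mem hx hy) (inv_mem (mul_mem hx hy))) h2

theorem MM_mem (Q : Web) {F : IntermediateField ℂ N} {x y : N} (hx : x ∈ F) (hy : y ∈ F)
    (a b : Fin 4) : MM Q x y a b ∈ F :=
  sum_mem fun i _ => mul_mem (lam_mem hx hy i) (F.algebraMap_mem _)

/-- **Relation (1)** for the cycles cut out on the lines. -/
theorem cut_const (h4 : Algebra.trdeg ℂ N = 4) (hQ : ∀ i, (Q i).IsSymm) (hc : IsFF Q c)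
    {x y w : N} (hw : w ^ 2 = (MM Q x y).det) (hw0 : w ≠ 0) {z z' : Fin 4 → N}
    (hz : GenZ x y (MM Q x y) z) (hz' : GenZ x y (MM Q x y) z') :
    cut Q c x y {u | Rul (MM Q x y) w z u} - cut Q c x y {u | Rul (MM Q x y) w z' u} ∈
      Rel m K N := by
  have hx : x ∈ cl0 ({x, y} : Set N) := subset_cl0 _ (by simp)
  have hy : y ∈ cl0 ({x, y} : Set N) := subset_cl0 _ (by simp)
  refine ruling_const h4 (MM_isSymm' hQ x y) (MM_mem Q hx hy) hw hw0 (cut Q c x y)
    (fun g hg L => ?_) hz hz'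
  rw [map_cut hc, hg x hx, hg y hy]

/-- The cycle depends only on the line. -/
theorem Psi_congr (hQ : ∀ i, (Q i).IsSymm) {x y w : N} (hw : w ^ 2 = (MM Q x y).det)
    (hw0 : w ≠ 0) {z z' : Fin 4 → N} (hz : z ≠ 0) (hz' : z' ≠ 0)
    (hzz : z ⬝ᵥ (MM Q x y).mulVec z = 0) (hzz' : z' ⬝ᵥ (MM Q x y).mulVec z' = 0)
    (h : Rul (MM Q x y) w z z') : Psi Q c x y w z = Psi Q c x y w z' := by
  haveI : CharZero N := charZero_of_injective_algebraMap (algebraMap ℂ N).injective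
  rw [Psi_eq_cut, Psi_eq_cut]
  congr 1
  ext u
  exact Rul.lin_eq (MM_isSymm' hQ x y) hw hw0 hz hz' hzz hzz' h u

/-- **Relation (1).** -/
theorem Psi_const (h4 : Algebra.trdeg ℂ N = 4) (hQ : ∀ i, (Q i).IsSymm) (hc : IsFF Q c)
    {x y w : N} (hw : w ^ 2 = (MM Q x y).det) (hw0 : w ≠ 0) {z z' : Fin 4 → N}
    (hz : GenZ x y (MM Q x y) z) (hz' : GenZ x y (MM Q x y) z') :
    Psi Q c x y w z - Psi Q c x y w z' ∈ Rel m K N := by
  rw [Psi_eq_cut, Psi_eq_cut]
  exact cut_const h4 hQ hc hw hw0 hz hz'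

end

end Vale.Agent.P297.C8.R1
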