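import Vale.Agent.P297.H521.PsiConst

/-!
The two points of a nonsingular quadric over a generic point of the plane.
-/

set_option linter.unusedSectionVars false
set_option linter.style.haveILetI false

open IntermediateField Polynomial Matrix

namespace Vale.Agent.P297.C8

open Vale.Agent.P297 Vale.Agent.P297.Gen

section

variable {N : Type} [Field N] [Algebra ℂ N]

theorem quad_zero {F : IntermediateField ℂ N} (hF : ∀ u, IsAlgebraic F u → u ∈ F) {t a b c : N}
    (ht : t ∉ F) (ha : a ∈ F) (hb : b ∈ F) (hc : c ∈ F) (h : a * t ^ 2 + b * t + c = 0) :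
    a = 0 ∧ b = 0 ∧ c = 0 := by
  have hp : (C a * X ^ 2 + C b * X + C c : N[X]) = 0 := by
    by_contra hne
    apply ht
    apply hF
    refine isAlgebraic_of_coeff (p := C a * X ^ 2 + C b * X + C c) ?_ hne ?_
    · intro n
      simp only [coeff_add, coeff_C_mul, coeff_X_pow, coeff_X, coeff_C]
      refine add_mem (add_mem (mul_mem ha ?_) (mul_mem hb ?_)) ?_
      · split_ifs
        · exact one_mem _
        · exact zero_mem _
      · split_ifs
        · exact one_mem _
        · exact zero_mem _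
      · split_ifs
        · exact hc
        · exact zero_mem _
    · simp only [eval_add, eval_mul, eval_C, eval_pow, eval_X]
      exact h
  have h0 := congrArg (fun p => coeff p 0) hp
  have h1 := congrArg (fun p => coeff p 1) hp
  have h2 := congrArg (fun p => coeff p 2) hp
  simp only [coeff_add, coeff_C_mul, coeff_X_pow, coeff_X, coeff_C, coeff_zero] at h0 h1 h2
  simp at h0 h1 h2
  exact ⟨h2, h1, h0⟩

variable [IsAlgClosed N]

theorem indep_pair {x y : N} (hxy : AlgebraicIndependent ℂ ![x, y]) :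
    x ∉ cl0 (∅ : Set N) ∧ y ∉ cl0 ({x} : Set N) := by
  have h0 := indep_notMem hxy (s := ∅) (i := 0) (by simp)
  have h1 := indep_notMem hxy (s := {0}) (i := 1) (by decide)
  rw [Set.image_empty] at h0
  rw [Set.image_singleton] at h1
  exact ⟨h0, h1⟩

theorem const_mem (F : IntermediateField ℂ N) (q : ℂ) : algebraMap ℂ N q ∈ F := F.algebraMap_mem q

/-- the four conics are independent -/
theorem lam_indep {x y : N} (hxy : AlgebraicIndependent ℂ ![x, y]) (q : Fin 4 → ℂ)
    (h : ∑ i, lam x y i * algebraMap ℂ N (q i) = 0) : q = 0 := by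
  obtain ⟨hx, hy⟩ := indep_pair hxy
  have hx0 : x ≠ 0 := by
    rintro rfl
    exact hx (zero_mem _)
  have hy0 : y ≠ 0 := by
    rintro rfl
    exact hy (zero_mem _)
  haveI : CharZero N := charZero_of_injective_algebraMap (algebraMap ℂ N).injective
  have hinj : ∀ z : ℂ, algebraMap ℂ N z = 0 → z = 0 := fun z hz =>
    (algebraMap ℂ N).injective (by rw [hz, map_zero])
  have hxm : x ∈ cl0 ({x} : Set N) := subset_cl0 _ rfl
  set q' : Fin 4 → N := fun i => algebraMap ℂ N (q i) with hq'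
  have hqm : ∀ i, q' i ∈ cl0 ({x} : Set N) := fun i => const_mem _ _
  have hqm0 : ∀ i, q' i ∈ cl0 (∅ : Set N) := fun i => const_mem _ _
  have e : (q' 2 * x + q' 3 * x ^ 2) * y ^ 2 + (2 * q' 0 * x + q' 1 * x ^ 2 + q' 1) * y +
      (q' 2 * x + q' 3) = 0 := by
    have h' : lam x y 0 * q' 0 + lam x y 1 * q' 1 + lam x y 2 * q' 2 + lam x y 3 * q' 3 = 0 := by
      rw [← h, Fin.sum_univ_four]
    simp only [lam, Matrix.cons_val] at h'
    field_simp at h'
    linear_combination h'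
  have h2m : (2 : N) ∈ cl0 ({x} : Set N) := by
    have h := (cl0 ({x} : Set N)).algebraMap_mem 2
    rwa [map_ofNat] at h
  obtain ⟨e2, e1, e0⟩ := quad_zero (cl0_closed _) hy
    (add_mem (mul_mem (hqm 2) hxm) (mul_mem (hqm 3) (pow_mem hxm 2)))
    (add_mem (add_mem (mul_mem (mul_mem h2m (hqm 0)) hxm) (mul_mem (hqm 1) (pow_mem hxm 2)))
      (hqm 1)) (add_mem (mul_mem (hqm 2) hxm) (hqm 3)) e
  have h2m0 : (2 : N) ∈ cl0 (∅ : Set N) := by
    have h := (cl0 (∅ : Set N)).algebraMap_mem 2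
    rwa [map_ofNat] at h
  obtain ⟨-, f1, f0⟩ := quad_zero (cl0_closed _) hx (zero_mem _) (hqm0 2) (hqm0 3)
    (by linear_combination e0)
  obtain ⟨g2, g1, -⟩ := quad_zero (cl0_closed _) hx (hqm0 1) (mul_mem h2m0 (hqm0 0)) (hqm0 1)
    (by linear_combination e1)
  have g1' : q' 0 = 0 := (mul_eq_zero.1 g1).resolve_left two_ne_zero
  funext i
  fin_cases i
  · exact hinj _ g1'
  · exact hinj _ g2
  · exact hinj _ f1
  · exact hinj _ f0

theorem two_roots {Q : Web} (hQ : ∀ i, (Q i).IsSymm) (h33 : ∃ i, Q i 3 3 ≠ 0) {x y μ₁ μ₂ : N}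
    (hxy : AlgebraicIndependent ℂ ![x, y]) (hdet : (MM Q x y).det ≠ 0)
    (h1 : μ₁ ∉ cl0 {x, y}) (h2 : μ₂ ∉ cl0 {x, y, μ₁}) : ∃ a b : N, a ≠ b ∧ ∀ t,
      (![1, μ₁, μ₂, t] ⬝ᵥ (MM Q x y).mulVec ![1, μ₁, μ₂, t] = 0 ↔ t = a ∨ t = b) := by
  haveI : CharZero N := charZero_of_injective_algebraMap (algebraMap ℂ N).injective
  set M := MM Q x y with hM
  have hs : ∀ i j, M j i = M i j := fun i j => (R1.MM_isSymm' hQ x y).apply i j
  have hx : x ∈ cl0 ({x, y} : Set N) := subset_cl0 _ (by simp)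
  have hy : y ∈ cl0 ({x, y} : Set N) := subset_cl0 _ (by simp)
  have hk : ∀ i j, M i j ∈ cl0 ({x, y} : Set N) := R1.MM_mem Q hx hy
  have hm33 : M 3 3 ≠ 0 := by
    intro h0
    obtain ⟨i, hi⟩ := h33
    exact hi (congrFun (lam_indep hxy (fun i => Q i 3 3) h0) i)
  have hle : cl0 ({x, y} : Set N) ≤ cl0 ({x, y, μ₁} : Set N) := by
    refine cl0_mono' ?_
    intro t ht
    rcases ht with rfl | rfl
    · simp
    · simp
  have hμ : μ₁ ∈ cl0 ({x, y, μ₁} : Set N) := subset_cl0 _ (by simp)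
  set B := M 0 3 + M 1 3 * μ₁ + M 2 3 * μ₂ with hB
  set q := M 0 0 + 2 * M 0 1 * μ₁ + 2 * M 0 2 * μ₂ + M 1 1 * μ₁ ^ 2 + 2 * M 1 2 * μ₁ * μ₂ +
    M 2 2 * μ₂ ^ 2 with hq
  have hform : ∀ t, ![1, μ₁, μ₂, t] ⬝ᵥ M.mulVec ![1, μ₁, μ₂, t] =
      M 3 3 * t ^ 2 + 2 * B * t + q := by
    intro t
    simp only [dotProduct, mulVec, Fin.sum_univ_four, Matrix.cons_val]
    rw [hs 0 1, hs 0 2, hs 0 3, hs 1 2, hs 1 3, hs 2 3, hB, hq]
    ring
  have hdisc : B ^ 2 - M 3 3 * q ≠ 0 := by
    intro h0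
    let n : Fin 4 → Fin 4 → N := fun i j => M i 3 * M j 3 - M i j * M 3 3
    have hn : ∀ i j, n i j ∈ cl0 ({x, y} : Set N) := fun i j =>
      sub_mem (mul_mem (hk i 3) (hk j 3)) (mul_mem (hk i j) (hk 3 3))
    have h2m : (2 : N) ∈ cl0 ({x, y} : Set N) := by
      have h := (cl0 ({x, y} : Set N)).algebraMap_mem 2
      rwa [map_ofNat] at h
    have e : n 2 2 * μ₂ ^ 2 + (2 * n 0 2 + 2 * n 1 2 * μ₁) * μ₂ +
        (n 0 0 + 2 * n 0 1 * μ₁ + n 1 1 * μ₁ ^ 2) = 0 := by
      rw [← h0, hB, hq]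
      simp only [n]
      ring
    obtain ⟨e2, e1, e0⟩ := quad_zero (cl0_closed _) h2 (hle (hn 2 2))
      (add_mem (hle (mul_mem h2m (hn 0 2))) (mul_mem (hle (mul_mem h2m (hn 1 2))) hμ))
      (add_mem (add_mem (hle (hn 0 0)) (mul_mem (hle (mul_mem h2m (hn 0 1))) hμ))
        (mul_mem (hle (hn 1 1)) (pow_mem hμ 2))) e
    obtain ⟨f2, f1, f0⟩ := quad_zero (cl0_closed _) h1 (hn 1 1) (mul_mem h2m (hn 0 1)) (hn 0 0)
      (by linear_combination e0)
    obtain ⟨-, g1, g0⟩ := quad_zero (cl0_closed _) h1 (zero_mem _) (mul_mem h2m (hn 1 2))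
      (mul_mem h2m (hn 0 2)) (by linear_combination e1)
    have k01 : n 0 1 = 0 := (mul_eq_zero.1 f1).resolve_left two_ne_zero
    have k02 : n 0 2 = 0 := (mul_eq_zero.1 g0).resolve_left two_ne_zero
    have hv : ![M 3 3, 0, 0, - M 0 3] ᵥ* M = 0 := by
      funext j
      simp only [vecMul, dotProduct, Fin.sum_univ_four, Matrix.cons_val, Pi.zero_apply]
      fin_cases j
      · simp only [Fin.zero_eta]
        rw [hs 0 3]
        linear_combination -f0
      · simp only [Fin.mk_one]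
        rw [hs 1 3]
        linear_combination -k01
      · simp only [Fin.reduceFinMk]
        rw [hs 2 3]
        linear_combination -k02
      · simp only [Fin.reduceFinMk]
        ring
    have hv0 := congrFun (Matrix.eq_zero_of_vecMul_eq_zero hdet hv) 0
    exact hm33 hv0
  obtain ⟨r, hr⟩ := IsAlgClosed.exists_pow_nat_eq (B ^ 2 - M 3 3 * q) two_pos
  have hr0 : r ≠ 0 := by
    rintro rfl
    rw [zero_pow two_ne_zero] at hr
    exact hdisc hr.symm
  refine ⟨(-B + r) / M 3 3, (-B - r) / M 3 3, ?_, ?_⟩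
  · intro h
    have h3 : (-B + r) = (-B - r) := by
      field_simp at h
      exact h
    have h4 : 2 * r = 0 := by linear_combination h3
    exact mul_ne_zero two_ne_zero hr0 h4
  · intro t
    rw [hform]
    have key : M 3 3 * (M 3 3 * t ^ 2 + 2 * B * t + q) =
        (M 3 3 * t - (-B + r)) * (M 3 3 * t - (-B - r)) := by
      linear_combination hr
    constructor
    · intro h
      rw [h, mul_zero] at key
      rcases mul_eq_zero.1 key.symm with h3 | h3
      · left
        rw [eq_div_iff hm33]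
        linear_combination h3
      · right
        rw [eq_div_iff hm33]
        linear_combination h3
    · intro h
      apply (mul_eq_zero.1 (key.trans ?_)).resolve_left hm33
      rcases h with rfl | rfl
      · rw [mul_div_cancel₀ _ hm33, sub_self, zero_mul]
      · rw [mul_div_cancel₀ _ hm33, sub_self, mul_zero]

end

end Vale.Agent.P297.C8
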