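import Mathlib

/-!
The two rulings of a nonsingular quadric surface.
-/

set_option linter.unusedSectionVars false

open Matrix

namespace Vale.Agent.P297.C8

section ring

variable {R A : Type} [CommRing R] [CommRing A]

/-- The Plücker coordinates of two vectors. -/
def wd (z u : Fin 4 → R) : Fin 6 → R :=
  ![z 0 * u 1 - z 1 * u 0, z 0 * u 2 - z 2 * u 0, z 0 * u 3 - z 3 * u 0,
    z 1 * u 2 - z 2 * u 1, z 1 * u 3 - z 3 * u 1, z 2 * u 3 - z 3 * u 2]

/-- The dual Plücker coordinates of two vectors. -/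
def ws (z u : Fin 4 → R) : Fin 6 → R :=
  ![z 2 * u 3 - z 3 * u 2, z 3 * u 1 - z 1 * u 3, z 1 * u 2 - z 2 * u 1,
    z 0 * u 3 - z 3 * u 0, z 2 * u 0 - z 0 * u 2, z 0 * u 1 - z 1 * u 0]

/-- The vector `u` lies on the line by `z` in the ruling `w` of the quadric of `M`. -/
def Rul (M : Matrix (Fin 4) (Fin 4) R) (w : R) (z u : Fin 4 → R) : Prop :=
  wd (M.mulVec z) (M.mulVec u) = w • ws z u

theorem rul_iff {M : Matrix (Fin 4) (Fin 4) R} {w : R} {z u : Fin 4 → R} : Rul M w z u ↔
    ((M.mulVec z) 0 * (M.mulVec u) 1 - (M.mulVec z) 1 * (M.mulVec u) 0 =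
        w * (z 2 * u 3 - z 3 * u 2)) ∧
    ((M.mulVec z) 0 * (M.mulVec u) 2 - (M.mulVec z) 2 * (M.mulVec u) 0 =
        w * (z 3 * u 1 - z 1 * u 3)) ∧
    ((M.mulVec z) 0 * (M.mulVec u) 3 - (M.mulVec z) 3 * (M.mulVec u) 0 =
        w * (z 1 * u 2 - z 2 * u 1)) ∧
    ((M.mulVec z) 1 * (M.mulVec u) 2 - (M.mulVec z) 2 * (M.mulVec u) 1 =
        w * (z 0 * u 3 - z 3 * u 0)) ∧
    ((M.mulVec z) 1 * (M.mulVec u) 3 - (M.mulVec z) 3 * (M.mulVec u) 1 =
        w * (z 2 * u 0 - z 0 * u 2)) ∧
    ((M.mulVec z) 2 * (M.mulVec u) 3 - (M.mulVec z) 3 * (M.mulVec u) 2 =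
        w * (z 0 * u 1 - z 1 * u 0)) := by
  unfold Rul
  constructor
  · intro h
    exact ⟨congrFun h 0, congrFun h 1, congrFun h 2, congrFun h 3, congrFun h 4, congrFun h 5⟩
  · rintro ⟨h0, h1, h2, h3, h4, h5⟩
    funext i
    fin_cases i
    · exact h0
    · exact h1
    · exact h2
    · exact h3
    · exact h4
    · exact h5

theorem wd_self (z : Fin 4 → R) : wd z z = 0 := by
  funext i
  fin_cases i <;> simp [wd, mul_comm]

theorem ws_self (z : Fin 4 → R) : ws z z = 0 := by
  funext i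
  fin_cases i <;> simp [ws, mul_comm]

theorem wd_swap (z u : Fin 4 → R) : wd u z = - wd z u := by
  funext i
  fin_cases i <;> simp [wd, mul_comm]

theorem ws_swap (z u : Fin 4 → R) : ws u z = - ws z u := by
  funext i
  fin_cases i <;> simp [ws, mul_comm]

theorem wd_add (z u v : Fin 4 → R) : wd z (u + v) = wd z u + wd z v := by
  funext i
  fin_cases i <;> simp [wd] <;> ring

theorem ws_add (z u v : Fin 4 → R) : ws z (u + v) = ws z u + ws z v := by
  funext i
  fin_cases i <;> simp [ws] <;> ring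

theorem wd_smul (c : R) (z u : Fin 4 → R) : wd z (c • u) = c • wd z u := by
  funext i
  fin_cases i <;> simp [wd] <;> ring

theorem ws_smul (c : R) (z u : Fin 4 → R) : ws z (c • u) = c • ws z u := by
  funext i
  fin_cases i <;> simp [ws] <;> ring

variable {M : Matrix (Fin 4) (Fin 4) R} {w : R} {z u v : Fin 4 → R}

theorem Rul.self (M : Matrix (Fin 4) (Fin 4) R) (w : R) (z : Fin 4 → R) : Rul M w z z := by
  unfold Rul
  rw [wd_self, ws_self, smul_zero]

theorem Rul.symm (h : Rul M w z u) : Rul M w u z := by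
  unfold Rul at h ⊢
  rw [wd_swap, ws_swap, h, smul_neg]

theorem Rul.comm : Rul M w z u ↔ Rul M w u z := ⟨Rul.symm, Rul.symm⟩

theorem Rul.add (h : Rul M w z u) (h' : Rul M w z v) : Rul M w z (u + v) := by
  unfold Rul at *
  rw [mulVec_add, wd_add, ws_add, h, h', smul_add]

theorem Rul.smul (c : R) (h : Rul M w z u) : Rul M w z (c • u) := by
  unfold Rul at *
  rw [mulVec_smul, wd_smul, ws_smul, h, smul_comm]

theorem Rul.add_left (h : Rul M w z v) (h' : Rul M w u v) : Rul M w (z + u) v :=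
  (h.symm.add h'.symm).symm

theorem Rul.smul_left (c : R) (h : Rul M w z u) : Rul M w (c • z) u := (h.symm.smul c).symm

theorem Rul.zero (M : Matrix (Fin 4) (Fin 4) R) (w : R) (z : Fin 4 → R) : Rul M w z 0 := by
  have h := (Rul.self M w z).smul 0
  rwa [zero_smul] at h

/-- The vectors of the line by `z`. -/
def lin (M : Matrix (Fin 4) (Fin 4) R) (w : R) (z : Fin 4 → R) : Submodule R (Fin 4 → R) where
  carrier := {u | Rul M w z u}
  add_mem' := Rul.add
  zero_mem' := Rul.zero M w z
  smul_mem' := fun c _ h => h.smul c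

theorem mem_lin : u ∈ lin M w z ↔ Rul M w z u := Iff.rfl

theorem Rul.map {F : Type} [FunLike F R A] [RingHomClass F R A] (g : F) (h : Rul M w z u) :
    Rul (M.map g) (g w) (fun j => g (z j)) (fun j => g (u j)) := by
  have e : ∀ (v : Fin 4 → R) (i : Fin 4), ((M.map g).mulVec (fun j => g (v j))) i =
      g ((M.mulVec v) i) := by
    intro v i
    simp only [mulVec, dotProduct, Matrix.map_apply, map_sum, map_mul]
  rw [rul_iff] at h ⊢
  simp only [e]
  obtain ⟨h0, h1, h2, h3, h4, h5⟩ := h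
  refine ⟨?_, ?_, ?_, ?_, ?_, ?_⟩
  · have := congrArg g h0
    simpa only [map_sub, map_mul] using this
  · have := congrArg g h1
    simpa only [map_sub, map_mul] using this
  · have := congrArg g h2
    simpa only [map_sub, map_mul] using this
  · have := congrArg g h3
    simpa only [map_sub, map_mul] using this
  · have := congrArg g h4
    simpa only [map_sub, map_mul] using this
  · have := congrArg g h5
    simpa only [map_sub, map_mul] using this

end ring

end Vale.Agent.P297.C8
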