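import Vale.Agent.P297.H721.PtMore
import Vale.Agent.P297.H637.PL

/-!
Points of the surface whose specialisation is a generic point are generic and specialise to it.
-/

set_option linter.unusedSectionVars false
set_option linter.style.haveILetI false

open IntermediateField

namespace Vale.Agent.P297.H521

open Vale.Agent.P297.H288 Vale.Agent.P297.H72 Vale.Agent.P297.H637

section

variable {K N N₁ : Type} [Field K] [Algebra ℂ K] [Field N] [Algebra ℂ N] [Field N₁] [Algebra ℂ N₁]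
  [Algebra N N₁] [IsScalarTower ℂ N N₁] {V : Plc N N₁} {P : Par} {x : Fin 4 → K}

theorem val_alg (z : ℂ) : V.Val (algebraMap ℂ N₁ z) (algebraMap ℂ N z) := by
  rw [IsScalarTower.algebraMap_apply ℂ N N₁]
  exact V.val_const _

theorem val_ofNat (n : ℕ) : V.Val (n : N₁) (n : N) := by
  have h := V.val_const (n : N)
  rwa [map_natCast] at h

theorem val_three' : V.Val (3 : N₁) (3 : N) := by
  have h := val_ofNat (V := V) 3
  exact_mod_cast h

theorem val_A2 {v₁ : N₁} {v : N} (h : V.Val v₁ v) : V.Val (A2 P v₁) (A2 P v) :=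
  ((val_three'.mul (h.pow 2)).sub ((val_alg _).mul h)).sub (val_alg _)

theorem val_A0 {v₁ : N₁} {v : N} (h : V.Val v₁ v) : V.Val (A0 P v₁) (A0 P v) :=
  ((val_three'.mul (h.pow 2)).sub ((val_alg _).mul h)).sub (val_alg _)

theorem val_B2 {v₁ : N₁} {v : N} (h : V.Val v₁ v) : V.Val (B2 P v₁) (B2 P v) :=
  ((h.pow 3).sub ((val_alg _).mul h)).sub (val_alg _)

theorem val_B0 {v₁ : N₁} {v : N} (h : V.Val v₁ v) : V.Val (B0 P v₁) (B0 P v) :=
  ((h.pow 3).sub ((val_alg _).mul h)).sub (val_alg _)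

theorem val_fV {s₁ u₁ v₁ : N₁} {s u v : N} (hs : V.Val s₁ s) (hu : V.Val u₁ u)
    (hv : V.Val v₁ v) : V.Val (fV P s₁ u₁ v₁) (fV P s u v) :=
  (val_three'.mul (val_B2 hv)).add (((hs.sub hu).sub hv).mul (val_A2 hv))

/-- **Generic points lift to generic points.** -/
theorem genS_of_val {y₁ : Fin 4 → N₁} {y : Fin 4 → N} (hv : ∀ j, V.Val (y₁ j) (y j))
    (hy : GenS P y) (hA : eA P (y₁ 0) (y₁ 1) (y₁ 2) (y₁ 3) = 0)
    (hB : eB P (y₁ 0) (y₁ 1) (y₁ 2) (y₁ 3) = 0) : GenS P y₁ := by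
  refine ⟨hA, hB, (V.val_one.add (hv 3)).ne_zero hy.ne,
    (val_fV (hv 0) (hv 1) (hv 2)).ne_zero hy.nV, ?_⟩
  obtain ⟨i, j, hij⟩ := hy.ind
  refine ⟨i, j, ?_⟩
  rw [algebraicIndependent_iff] at hij ⊢
  intro f hf
  apply hij
  have h1 : ∀ k, V.Val ((![y₁ i, y₁ j] : Fin 2 → N₁) k) ((![y i, y j] : Fin 2 → N) k) := by
    intro k
    fin_cases k
    · exact hv i
    · exact hv j
  have h2 : ∀ f : MvPolynomial (Fin 2) ℂ,
      V.Val (MvPolynomial.aeval (![y₁ i, y₁ j] : Fin 2 → N₁) f)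
        (MvPolynomial.aeval (![y i, y j] : Fin 2 → N) f) := by
    intro f
    induction f using MvPolynomial.induction_on with
    | C a =>
      rw [MvPolynomial.aeval_C, MvPolynomial.aeval_C]
      exact val_alg _
    | add p q hp hq => rw [map_add, map_add]; exact hp.add hq
    | mul_X p k hp =>
      rw [map_mul, map_mul, MvPolynomial.aeval_X, MvPolynomial.aeval_X]
      exact hp.mul (h1 k)
  have h3 := h2 f
  rw [hf] at h3
  exact h3.unique V.val_zero

/-- **The specialisation of a point of the surface.** -/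
theorem specC_pt (hx : H288.IsFF P x) {y₁ : Fin 4 → N₁} {y : Fin 4 → N}
    (hA : eA P (y₁ 0) (y₁ 1) (y₁ 2) (y₁ 3) = 0) (hB : eB P (y₁ 0) (y₁ 1) (y₁ 2) (y₁ 3) = 0)
    (hv : ∀ j, V.Val (y₁ j) (y j)) (hy : GenS P y) : (H288.pt x y₁, H288.pt x y) ∈ SpecC K V := by
  obtain ⟨φ, hφ, hp⟩ := hy.exists_pt hx
  obtain ⟨φ₁, hφ₁, hp₁⟩ := (genS_of_val hv hy hA hB).exists_pt hx
  rw [hp, hp₁]
  refine SpecC.single_of_gens hx.top ?_
  rintro _ ⟨j, rfl⟩
  rw [hφ, hφ₁]
  exact hv j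

end

end Vale.Agent.P297.H521
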