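import Vale.Agent.P297.H72.Plc
import Vale.Agent.P297.Gen.Setup

/-!
The centres of a chord are generic.
-/

set_option linter.unusedSectionVars false
set_option linter.style.haveILetI false

open IntermediateField Polynomial

namespace Vale.Agent.P297.H521

section

variable {N : Type} [Field N] [Algebra ℂ N]

/-- A valuation trivial on `F` for which `c` is small. -/
theorem exists_val_zero (F : IntermediateField ℂ N) (hF : ∀ u, IsAlgebraic F u → u ∈ F) {c : N}
    (hc : c ∉ F) : ∃ V : ValuationSubring N,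
      (∀ f ∈ F, f ≠ 0 → V.valuation f = 1) ∧ V.valuation c < 1 := by
  have ht : Transcendental F c := fun h => hc (hF c h)
  obtain ⟨V, hV, hV0⟩ := H72.exists_valuation_of_ker (aeval c : F[X] →ₐ[F] N).toRingHom
    (evalRingHom (0 : F)) (by
      intro q hq
      have h1 : q = 0 := transcendental_iff_injective.1 ht (by rw [map_zero]; exact hq)
      rw [h1, map_zero])
  have hmem : ∀ f ∈ F, f ∈ V := by
    intro f hf
    have h1 := hV (C ⟨f, hf⟩)
    have h2 : (aeval c : F[X] →ₐ[F] N).toRingHom (C ⟨f, hf⟩) = f := aeval_C c _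
    rwa [h2] at h1
  refine ⟨V, ?_, ?_⟩
  · intro f hf h0
    have h1 : V.valuation f ≤ 1 := (V.valuation_le_one_iff f).2 (hmem f hf)
    have h2 : V.valuation f⁻¹ ≤ 1 := (V.valuation_le_one_iff _).2 (hmem _ (inv_mem hf))
    rw [map_inv₀] at h2
    have h3 : V.valuation f ≠ 0 := (Valuation.ne_zero_iff _).2 h0
    refine le_antisymm h1 ?_
    exact (inv_le_one₀ (zero_lt_iff.2 h3)).1 h2
  · have h1 := hV0 X (by simp)
    have h2 : (aeval c : F[X] →ₐ[F] N).toRingHom X = c := aeval_X c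
    rw [h2] at h1
    exact (V.mem_nonunits_iff).1 h1

end

/-- The core computation. -/
theorem centre_core {N : Type} [Field N] {Γ : Type} [LinearOrderedCommGroupWithZero Γ]
    (w : Valuation N Γ) {m3 m4 M v1 v2 n0 n2 c β d a ρ α : N}
    (hc : w c < 1) (c0 : c ≠ 0) (hβ : w β ≤ 1) (hm3 : w m3 ≤ 1) (hM : w M ≤ 1)
    (hv1 : w v1 ≤ 1) (hv2 : w v2 ≤ 1) (hn0 : w n0 = 1 ∨ n0 = 0) (hn2 : w n2 ≤ 1)
    (h3 : w (3 : N) = 1) (hu : ∀ v, v = v1 ∨ v = v2 → w (v + 1) = 1 ∧ w (3 * v ^ 2 - m4) = 1)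
    (hdir : ρ ≠ 0 ∨ α ≠ 0) (h4 : n0 * a = (d - v1) * (d - v2)) (h5 : a ^ 2 = n2 * c ^ 3 * (d - v2))
    (y1 : 3 * a ^ 2 * (-c * (α + c * ρ)) + c ^ 6 * (3 * β ^ 2 - m3) * ρ +
      c ^ 3 * (3 * d ^ 2 - m4) * α - c ^ 3 * (a * (3 * (d + 1) * ρ + 3 * (β + 1) * α) +
        (-c * (α + c * ρ)) * (3 * β * d + 3 * (β + d) + M)) = 0)
    (y2 : 3 * a * (-c * (α + c * ρ)) ^ 2 + 3 * c ^ 6 * β * ρ ^ 2 + 3 * c ^ 3 * d * α ^ 2 -
      c ^ 3 * (3 * a * ρ * α + (-c * (α + c * ρ)) * (3 * (d + 1) * ρ + 3 * (β + 1) * α)) = 0) :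
    False := by
  -- bounded and small elements
  have Badd : ∀ {x y : N}, w x ≤ 1 → w y ≤ 1 → w (x + y) ≤ 1 := fun hx hy => w.map_add_le hx hy
  have Bsub : ∀ {x y : N}, w x ≤ 1 → w y ≤ 1 → w (x - y) ≤ 1 := fun hx hy => w.map_sub_le hx hy
  have Bmul : ∀ {x y : N}, w x ≤ 1 → w y ≤ 1 → w (x * y) ≤ 1 := fun hx hy => by
    rw [map_mul]; exact mul_le_one' hx hy
  have Sadd : ∀ {x y : N}, w x < 1 → w y < 1 → w (x + y) < 1 := fun hx hy => w.map_add_lt hx hy
  have Sneg : ∀ {x : N}, w x < 1 → w (-x) < 1 := fun hx => by rwa [w.map_neg]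
  have Ssub : ∀ {x y : N}, w x < 1 → w y < 1 → w (x - y) < 1 := fun hx hy => by
    rw [sub_eq_add_neg]; exact Sadd hx (Sneg hy)
  have SB : ∀ {x y : N}, w x < 1 → w y ≤ 1 → w (x * y) < 1 := fun hx hy => by
    rw [map_mul]; exact mul_lt_one_of_lt_of_le hx hy
  have BS : ∀ {x y : N}, w x ≤ 1 → w y < 1 → w (x * y) < 1 := fun hx hy => by
    rw [mul_comm]; exact SB hy hx
  have B1 : w (1 : N) ≤ 1 := (map_one w).le
  have B3 : w (3 : N) ≤ 1 := h3.le
  have Bc : w c ≤ 1 := hc.le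
  -- `d` is finite
  have hd : w d ≤ 1 := by
    by_contra hD
    push Not at hD
    have e1 : w (d - v1) = w d := by
      rw [sub_eq_add_neg]
      exact w.map_add_eq_of_lt_left (by rw [w.map_neg]; exact lt_of_le_of_lt hv1 hD)
    have e2 : w (d - v2) = w d := by
      rw [sub_eq_add_neg]
      exact w.map_add_eq_of_lt_left (by rw [w.map_neg]; exact lt_of_le_of_lt hv2 hD)
    rcases hn0 with hn0 | hn0
    · have e3 : w a = w d * w d := by
        have h := congrArg w h4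
        rw [map_mul, map_mul, hn0, one_mul, e1, e2] at h
        exact h
      have e4 := congrArg w h5
      rw [map_pow, map_mul, map_mul, map_pow, e2, e3] at e4
      have e5 : (w d * w d) ^ 2 ≤ w d := by
        rw [e4]
        exact mul_le_of_le_one_left' (mul_le_one' hn2 (pow_le_one' Bc 3))
      have e6 : w d < (w d * w d) ^ 2 := by
        have h1 : (1 : Γ) < w d * w d := one_lt_mul'' hD hD
        have h2 : w d * 1 ≤ w d * w d := mul_le_mul_right hD.le _
        calc w d = w d * 1 := (mul_one _).symm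
          _ ≤ w d * w d := h2
          _ = (w d * w d) * 1 := (mul_one _).symm
          _ < (w d * w d) * (w d * w d) := by
              exact (mul_lt_mul_iff_right₀ (lt_trans zero_lt_one h1)).2 h1
          _ = (w d * w d) ^ 2 := (sq _).symm
      exact absurd e5 (not_le.2 e6)
    · rw [hn0, zero_mul] at h4
      have h6 : w (d - v1) * w (d - v2) = 0 := by rw [← map_mul, ← h4, map_zero]
      rw [e1, e2] at h6
      have h7 : w d = 0 := by simpa using h6
      rw [h7] at hD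
      exact absurd hD (not_lt.2 zero_le_one)
  -- `a = c a'`
  obtain ⟨a', rfl, ha'⟩ : ∃ a', a = c * a' ∧ w a' < 1 := by
    refine ⟨a / c, by field_simp, ?_⟩
    have e1 : (a / c) ^ 2 = n2 * c * (d - v2) := by
      rw [div_pow, h5]
      field_simp
    have e2 : w ((a / c) ^ 2) < 1 := by
      rw [e1]
      exact SB (BS hn2 hc) (Bsub hd hv2)
    rw [map_pow] at e2
    by_contra hcon
    push Not at hcon
    exact absurd e2 (not_lt.2 (one_le_pow₀ hcon))
  have hSa : w (c * a') < 1 := SB hc ha'.le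
  -- `d` reduces to one of the two roots
  obtain ⟨v, hv, hdv⟩ : ∃ v, (v = v1 ∨ v = v2) ∧ w (d - v) < 1 := by
    have e1 : w ((d - v1) * (d - v2)) < 1 := by
      rw [← h4]
      refine BS ?_ hSa
      rcases hn0 with h | h
      · exact h.le
      · rw [h, map_zero]; exact zero_le_one
    by_contra hcon
    push Not at hcon
    have e2 := hcon v1 (Or.inl rfl)
    have e3 := hcon v2 (Or.inr rfl)
    rw [map_mul] at e1
    exact absurd e1 (not_lt.2 (one_le_mul e2 e3))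
  obtain ⟨hv', hv''⟩ := hu v hv
  have hBv : w v ≤ 1 := by
    rcases hv with rfl | rfl
    · exact hv1
    · exact hv2
  have hd1 : w (d + 1) = 1 := by
    have e1 : d + 1 = (v + 1) + (d - v) := by ring
    rw [e1, w.map_add_eq_of_lt_left (by rw [hv']; exact hdv), hv']
  have he : w (3 * d ^ 2 - m4) = 1 := by
    have e1 : 3 * d ^ 2 - m4 = (3 * v ^ 2 - m4) + (d - v) * (3 * (d + v)) := by ring
    have e2 : w ((d - v) * (3 * (d + v))) < 1 := SB hdv (Bmul B3 (Badd hd hBv))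
    rw [e1, w.map_add_eq_of_lt_left (by rw [hv'']; exact e2), hv'']
  have hBh : w (3 * β * d + 3 * (β + d) + M) ≤ 1 :=
    Badd (Badd (Bmul (Bmul B3 hβ) hd) (Bmul B3 (Badd hβ hd))) hM
  have hBk : w (3 * β * d + 3 * (β + d) + M - 3 * n2 * (d - v2)) ≤ 1 :=
    Bsub hBh (Bmul (Bmul B3 hn2) (Bsub hd hv2))
  -- the unit `E`
  obtain ⟨E, hE⟩ : ∃ E, E = (3 * d ^ 2 - m4) - (3 * (c * a') * (β + 1) -
      c * (3 * β * d + 3 * (β + d) + M - 3 * n2 * (d - v2))) := ⟨_, rfl⟩
  have hE1 : w E = 1 := by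
    have e2 : w (-(3 * (c * a') * (β + 1) -
        c * (3 * β * d + 3 * (β + d) + M - 3 * n2 * (d - v2)))) < 1 :=
      Sneg (Ssub (SB (BS B3 hSa) (Badd hβ B1)) (SB hc hBk))
    rw [hE, sub_eq_add_neg, w.map_add_eq_of_lt_left (by rw [he]; exact e2), he]
  have hc3 : c ^ 3 ≠ 0 := pow_ne_zero 3 c0
  -- the first equation divided by `c ^ 3`
  have y1' : α * E = ρ * (c * (3 * a' * (d + 1) - c ^ 2 * (3 * β ^ 2 - m3) -
      c * (3 * β * d + 3 * (β + d) + M - 3 * n2 * (d - v2)))) := by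
    apply mul_left_cancel₀ hc3
    rw [hE]
    rw [h5] at y1
    linear_combination y1
  have hE0 : E ≠ 0 := by
    intro h0
    rw [h0, map_zero] at hE1
    exact zero_ne_one hE1
  by_cases hρ : ρ = 0
  · rw [hρ, zero_mul] at y1'
    have hα : α ≠ 0 := by
      rcases hdir with h | h
      · exact absurd hρ h
      · exact h
    rcases mul_eq_zero.1 y1' with h | h
    · exact hα h
    · exact hE0 h
  · obtain ⟨α', hα'⟩ : ∃ α', α = ρ * (c * α') := ⟨α / (ρ * c), by field_simp⟩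
    have hα1 : α' * E = 3 * a' * (d + 1) - c ^ 2 * (3 * β ^ 2 - m3) -
        c * (3 * β * d + 3 * (β + d) + M - 3 * n2 * (d - v2)) := by
      apply mul_left_cancel₀ (mul_ne_zero hρ c0)
      rw [hα'] at y1'
      linear_combination y1'
    have hS : w α' < 1 := by
      have e1 : w (α' * E) < 1 := by
        rw [hα1]
        refine Ssub (Ssub (SB (BS B3 ha') (Badd hd B1)) ?_) (SB hc hBk)
        rw [sq]
        exact SB (SB hc Bc) (Bsub (Bmul B3 (by rw [sq]; exact Bmul hβ hβ)) hm3)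
      rwa [map_mul, hE1, mul_one] at e1
    -- the second equation
    have e1 : 3 * (d + 1) = -(3 * a' * (1 + α') ^ 2 + 3 * β * c + 3 * d * (α' * α') - 3 * a' * α' +
        3 * (α' * (d + 1)) + 3 * (1 + α') * ((β + 1) * (c * α'))) := by
      apply mul_left_cancel₀ (mul_ne_zero (pow_ne_zero 2 hρ) (pow_ne_zero 5 c0))
      rw [hα'] at y2
      linear_combination y2
    have e2 : w (3 * (d + 1)) < 1 := by
      rw [e1]
      have BA : w α' ≤ 1 := hS.le
      have B1A : w (1 + α') ≤ 1 := Badd B1 BA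
      refine Sneg (Sadd (Sadd (Ssub (Sadd (Sadd ?_ ?_) ?_) ?_) ?_) ?_)
      · exact SB (BS B3 ha') (by rw [sq]; exact Bmul B1A B1A)
      · exact BS (Bmul B3 hβ) hc
      · exact BS (Bmul B3 hd) (SB hS BA)
      · exact SB (BS B3 ha') BA
      · exact BS B3 (SB hS (Badd hd B1))
      · exact BS (Bmul B3 B1A) (BS (Badd hβ B1) (SB hc BA))
    rw [map_mul, h3, hd1, one_mul] at e2
    exact lt_irrefl _ e2

section

variable {N : Type} [Field N] [Algebra ℂ N]

/-- The residues at a centre defined over `F` are defined over `F`. -/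
theorem residues_mem (F : IntermediateField ℂ N) (hF : ∀ u, IsAlgebraic F u → u ∈ F)
    {v0 v1 v2 n0 n1 n2 A B E : N} (hv0 : v0 ∈ F) (hv1 : v1 ∈ F) (hv2 : v2 ∈ F)
    (h01 : v0 ≠ v1) (h02 : v0 ≠ v2) (h12 : v1 ≠ v2) (hA : A ∈ F) (hB : B ∈ F) (hE : E ∈ F)
    (h1 : n0 + n1 + n2 = A) (h2 : v0 * n0 + v1 * n1 + v2 * n2 = B) (h3 : n0 * n1 * n2 = E) :
    n0 ∈ F ∧ n1 ∈ F ∧ n2 ∈ F := by
  have e1 : (v1 - v2) * n1 = (B - v2 * A) - (v0 - v2) * n0 := by linear_combination h2 - v2 * h1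
  have e2 : (v2 - v1) * n2 = (B - v1 * A) - (v0 - v1) * n0 := by linear_combination h2 - v1 * h1
  have d12 : v1 - v2 ≠ 0 := sub_ne_zero.2 h12
  have d21 : v2 - v1 ≠ 0 := sub_ne_zero.2 h12.symm
  have h0 : n0 ∈ F := by
    apply hF
    let k : Fin 4 → F := ![⟨(v1 - v2) ^ 2 * E, mul_mem (pow_mem (sub_mem hv1 hv2) 2) hE⟩,
      ⟨(B - v2 * A) * (B - v1 * A), mul_mem (sub_mem hB (mul_mem hv2 hA))
        (sub_mem hB (mul_mem hv1 hA))⟩,
      ⟨-((B - v2 * A) * (v0 - v1) + (B - v1 * A) * (v0 - v2)), neg_mem (add_mem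
        (mul_mem (sub_mem hB (mul_mem hv2 hA)) (sub_mem hv0 hv1))
        (mul_mem (sub_mem hB (mul_mem hv1 hA)) (sub_mem hv0 hv2)))⟩,
      ⟨(v0 - v2) * (v0 - v1), mul_mem (sub_mem hv0 hv2) (sub_mem hv0 hv1)⟩]
    refine ⟨C (k 3) * X ^ 3 + C (k 2) * X ^ 2 + C (k 1) * X + C (k 0), ?_, ?_⟩
    · intro h
      have h' := congrArg (fun q => q.coeff 3) h
      simp only [coeff_add, coeff_C_mul, coeff_X_pow, coeff_X, coeff_C, coeff_zero] at h'
      norm_num at h'
      have h'' : (v0 - v2) * (v0 - v1) = 0 := congrArg Subtype.val h'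
      rcases mul_eq_zero.1 h'' with h | h
      · exact h02 (sub_eq_zero.1 h)
      · exact h01 (sub_eq_zero.1 h)
    · simp only [map_add, map_mul, map_pow, aeval_X, aeval_C]
      change (v0 - v2) * (v0 - v1) * n0 ^ 3 +
        -((B - v2 * A) * (v0 - v1) + (B - v1 * A) * (v0 - v2)) * n0 ^ 2 +
        (B - v2 * A) * (B - v1 * A) * n0 + (v1 - v2) ^ 2 * E = 0
      have e3 : (v1 - v2) * n1 * ((v2 - v1) * n2) = ((B - v2 * A) - (v0 - v2) * n0) *
        ((B - v1 * A) - (v0 - v1) * n0) := by rw [e1, e2]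
      linear_combination -(v1 - v2) ^ 2 * h3 - n0 * e3
  refine ⟨h0, ?_, ?_⟩
  · have e3 : n1 = ((B - v2 * A) - (v0 - v2) * n0) / (v1 - v2) := by
      rw [eq_div_iff d12, mul_comm]
      exact e1
    rw [e3]
    exact div_mem (sub_mem (sub_mem hB (mul_mem hv2 hA)) (mul_mem (sub_mem hv0 hv2) h0))
      (sub_mem hv1 hv2)
  · have e3 : n2 = ((B - v1 * A) - (v0 - v1) * n0) / (v2 - v1) := by
      rw [eq_div_iff d21, mul_comm]
      exact e2
    rw [e3]
    exact div_mem (sub_mem (sub_mem hB (mul_mem hv1 hA)) (mul_mem (sub_mem hv0 hv1) h0))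
      (sub_mem hv2 hv1)

/-- **The centres of a chord are generic.** Let `F` be closed, `v0, v1, v2` the roots of
`X³ - m4 X - m2`, `c ∉ F`. If the line through `(β, d, a)` with direction
`(ρ, α, -c (α + c ρ))` lies in the surface
`a³ + c⁶ e2(b) + c³ e0(d) - c³ a h(b, d) = 0`, and its point `(β, d, a)` lies on the curve
`L(v, n)`, then `β ∉ F`. -/
theorem centre_notMem (F : IntermediateField ℂ N) (hF : ∀ u, IsAlgebraic F u → u ∈ F)
    {m1 m2 m3 m4 M v0 v1 v2 : N} (hm1 : m1 ∈ F) (hm3 : m3 ∈ F) (hM : M ∈ F)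
    (hv0 : v0 ∈ F) (hv1 : v1 ∈ F) (hv2 : v2 ∈ F) (h01 : v0 ≠ v1) (h02 : v0 ≠ v2) (h12 : v1 ≠ v2)
    (he0 : ∀ X : N, X ^ 3 - m4 * X - m2 = (X - v0) * (X - v1) * (X - v2))
    (hw1 : v1 ≠ -1) (hw2 : v2 ≠ -1) {c : N} (hc : c ∉ F) {β d a ρ α n0 n1 n2 : N}
    (hdir : ρ ≠ 0 ∨ α ≠ 0)
    (hline : ∀ y : N, (a + -c * (α + c * ρ) * y) ^ 3 +
      c ^ 6 * ((β + ρ * y) ^ 3 - m3 * (β + ρ * y) - m1) +
      c ^ 3 * ((d + α * y) ^ 3 - m4 * (d + α * y) - m2) -
      c ^ 3 * ((a + -c * (α + c * ρ) * y) * (3 * (β + ρ * y) * (d + α * y) +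
        3 * ((β + ρ * y) + (d + α * y)) + M)) = 0)
    (h1 : n0 + n1 + n2 = 3 * (β + 1)) (h2 : v0 * n0 + v1 * n1 + v2 * n2 = -(3 * β + M))
    (h3 : n0 * n1 * n2 = β ^ 3 - m3 * β - m1) (h4 : n0 * a = (d - v1) * (d - v2))
    (h5 : a ^ 2 = n2 * c ^ 3 * (d - v2)) : β ∉ F := by
  intro hβ
  haveI : CharZero N := charZero_of_injective_algebraMap (algebraMap ℂ N).injective
  have hn : ∀ k : ℕ, (k : N) ∈ F := fun k => _root_.natCast_mem F k
  have hthree : (3 : N) ∈ F := by exact_mod_cast hn 3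
  obtain ⟨hn0, hn1, hn2⟩ := residues_mem F hF hv0 hv1 hv2 h01 h02 h12
    (mul_mem hthree (add_mem hβ (one_mem F))) (neg_mem (add_mem (mul_mem hthree hβ) hM))
    (sub_mem (sub_mem (pow_mem hβ 3) (mul_mem hm3 hβ)) hm1) h1 h2 h3
  have s1 : v0 + v1 + v2 = 0 := by
    have a0 := he0 0
    have a1 := he0 1
    have a2 := he0 (-1)
    linear_combination (1 / 2) * (a1 + a2) - a0
  have s2 : m4 = -(v0 * v1 + v0 * v2 + v1 * v2) := by
    have a1 := he0 1
    have a2 := he0 (-1)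
    linear_combination -(1 / 2) * (a1 - a2)
  have hm4 : m4 ∈ F := by
    rw [s2]
    exact neg_mem (add_mem (add_mem (mul_mem hv0 hv1) (mul_mem hv0 hv2)) (mul_mem hv1 hv2))
  obtain ⟨V, hV, hVc⟩ := exists_val_zero F hF hc
  have hle : ∀ f ∈ F, V.valuation f ≤ 1 := by
    intro f hf
    by_cases h0 : f = 0
    · rw [h0, map_zero]
      exact zero_le_one
    · exact (hV f hf h0).le
  have c0 : c ≠ 0 := by
    rintro rfl
    exact hc (zero_mem F)
  refine centre_core V.valuation (m3 := m3) (m4 := m4) (M := M) (v1 := v1) (v2 := v2) (n0 := n0)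
    (n2 := n2) (c := c) (β := β) (d := d) (a := a) (ρ := ρ) (α := α) hVc c0 (hle _ hβ) (hle _ hm3)
    (hle _ hM) (hle _ hv1) (hle _ hv2) ?_ (hle _ hn2) (hV 3 hthree (by norm_num)) ?_
    hdir h4 h5 ?_ ?_
  · by_cases h0 : n0 = 0
    · exact Or.inr h0
    · exact Or.inl (hV _ hn0 h0)
  · rintro v (rfl | rfl)
    · refine ⟨hV _ (add_mem hv1 (one_mem F)) ?_, hV _ ?_ ?_⟩
      · intro h0
        exact hw1 (eq_neg_of_add_eq_zero_left h0)
      · exact sub_mem (mul_mem hthree (pow_mem hv1 2)) hm4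
      · intro h0
        have e : (v - v0) * (v - v2) = 0 := by
          rw [← h0, s2]
          linear_combination (-2 * v) * s1
        rcases mul_eq_zero.1 e with h | h
        · exact h01 (sub_eq_zero.1 h).symm
        · exact h12 (sub_eq_zero.1 h)
    · refine ⟨hV _ (add_mem hv2 (one_mem F)) ?_, hV _ ?_ ?_⟩
      · intro h0
        exact hw2 (eq_neg_of_add_eq_zero_left h0)
      · exact sub_mem (mul_mem hthree (pow_mem hv2 2)) hm4
      · intro h0
        have e : (v - v0) * (v - v1) = 0 := by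
          rw [← h0, s2]
          linear_combination (-2 * v) * s1
        rcases mul_eq_zero.1 e with h | h
        · exact h02 (sub_eq_zero.1 h).symm
        · exact h12 (sub_eq_zero.1 h).symm
  · have a1 := hline 1
    have a2 := hline (-1)
    have a3 := hline 2
    have a4 := hline (-2)
    linear_combination (8 / 12) * (a1 - a2) - (1 / 12) * (a3 - a4)
  · have a0 := hline 0
    have a1 := hline 1
    have a2 := hline (-1)
    linear_combination (1 / 2) * (a1 + a2) - a0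

end

end Vale.Agent.P297.H521
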