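import Vale.Agent.P297.H521.Joined
import Vale.Agent.P297.H72.Rel

/-!
The homotopy lemma: a cycle of embeddings which is defined over `F(t)` does not change modulo
rational equivalence when `t` is moved and `F` is fixed.
-/

set_option linter.unusedSectionVars false
set_option linter.style.haveILetI false

open CategoryTheory AlgebraicGeometry IntermediateField Polynomial

namespace Vale.Agent.P297.H521

open Vale.Agent.P297 Vale.Agent.P297.H839 Vale.Agent.P297.H516 Vale.Agent.P297.H729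
open Vale.Agent.P297.H72

/-- An open subset of the affine line over a finitely generated subalgebra of `F`, over which
finitely many elements of `F(t)` are defined. -/
theorem exists_line_model {N : Type} [Field N] [Algebra ℂ N] (F : IntermediateField ℂ N) {t : N}
    (ht : Transcendental F t) (Z : Finset N) (hZ : ∀ z ∈ Z, z ∈ IntermediateField.adjoin F {t}) :
    ∃ (A : Subalgebra ℂ N) (_ : A.FG) (_ : ∀ a ∈ A, a ∈ F) (h : A[X])
      (g : Localization.Away h →ₐ[ℂ] N),
      (∀ x : A[X], g (algebraMap A[X] (Localization.Away h) x) = aeval t x) ∧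
      Function.Injective g ∧ ∀ z ∈ Z, ∃ w, g w = z := by
  classical
  have h1 : ∀ z : Z, ∃ pq : F[X] × F[X], aeval t pq.2 ≠ 0 ∧ z.1 = aeval t pq.1 / aeval t pq.2 := by
    rintro ⟨z, hz⟩
    by_cases hz0 : z = 0
    · exact ⟨(0, 1), by simp, by simp [hz0]⟩
    obtain ⟨p, q, hpq⟩ := (IntermediateField.mem_adjoin_simple_iff F z).1 (hZ z hz)
    refine ⟨(p, q), ?_, hpq⟩
    intro h0
    apply hz0
    rw [hpq, h0, div_zero]
  choose pq hq hpq using h1
  let cs : Finset F := Finset.univ.biUnion fun z : Z => (pq z).1.coeffs ∪ (pq z).2.coeffs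
  let A : Subalgebra ℂ N := Algebra.adjoin ℂ ((cs.image (fun c : F => (c : N)) : Finset N) : Set N)
  have hAfg : A.FG := ⟨_, rfl⟩
  have hAF : ∀ a ∈ A, a ∈ F := by
    intro a ha
    have h2 : A ≤ F.toSubalgebra := by
      apply Algebra.adjoin_le
      intro x hx
      rw [Finset.mem_coe, Finset.mem_image] at hx
      obtain ⟨c, -, rfl⟩ := hx
      exact c.2
    exact h2 ha
  let ι : A →+* F := { toFun := fun a => ⟨a.1, hAF a.1 a.2⟩, map_one' := rfl, map_mul' := fun _ _ => rfl,
                       map_zero' := rfl, map_add' := fun _ _ => rfl }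
  have hιinj : Function.Injective ι := fun a b hab => Subtype.ext (congrArg (fun x : F => (x : N)) hab)
  have haev : ∀ p : A[X], aeval t (p.map ι) = aeval t p := by
    intro p
    rw [aeval_def, aeval_def, eval₂_map]
    rfl
  have hlift : ∀ p : F[X], p.coeffs ⊆ cs → ∃ p' : A[X], p'.map ι = p := by
    intro p hp
    have h2 : p ∈ Polynomial.lifts ι := by
      rw [Polynomial.lifts_iff_coeff_lifts]
      intro m
      by_cases h0 : p.coeff m = 0
      · exact ⟨0, by rw [map_zero, h0]⟩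
      · have h3 : p.coeff m ∈ cs := hp (Polynomial.coeff_mem_coeffs h0)
        refine ⟨⟨(p.coeff m : N), Algebra.subset_adjoin ?_⟩, ?_⟩
        · rw [Finset.mem_coe, Finset.mem_image]
          exact ⟨_, h3, rfl⟩
        · exact Subtype.ext rfl
    exact (Polynomial.mem_lifts _).1 h2
  have hl : ∀ z : Z, ∃ p' q' : A[X], p'.map ι = (pq z).1 ∧ q'.map ι = (pq z).2 := by
    intro z
    obtain ⟨p', hp'⟩ := hlift (pq z).1 (Finset.subset_union_left.trans
      (Finset.subset_biUnion_of_mem (fun z : Z => (pq z).1.coeffs ∪ (pq z).2.coeffs)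
        (Finset.mem_univ z)))
    obtain ⟨q', hq'⟩ := hlift (pq z).2 (Finset.subset_union_right.trans
      (Finset.subset_biUnion_of_mem (fun z : Z => (pq z).1.coeffs ∪ (pq z).2.coeffs)
        (Finset.mem_univ z)))
    exact ⟨p', q', hp', hq'⟩
  choose p' q' hp' hq' using hl
  let h : A[X] := ∏ z, q' z
  have hht : aeval t h ≠ 0 := by
    rw [map_prod]
    apply Finset.prod_ne_zero_iff.2
    intro z _
    rw [← haev, hq']
    exact hq z
  let g : Localization.Away h →ₐ[ℂ] N := awayLift ((aeval t : A[X] →ₐ[A] N).restrictScalars ℂ) h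
    (IsUnit.mk0 _ hht)
  have hg : ∀ x : A[X], g (algebraMap A[X] (Localization.Away h) x) = aeval t x := fun x =>
    awayLift_algebraMap _ h _ x
  have hinjA : ∀ x : A[X], aeval t x = 0 → x = 0 := by
    intro x hx
    rw [← haev] at hx
    have h2 := (transcendental_iff.1 ht) _ hx
    exact (Polynomial.map_eq_zero_iff hιinj).1 h2
  refine ⟨A, hAfg, hAF, h, g, hg, ?_, ?_⟩
  · rw [injective_iff_map_eq_zero]
    intro x hx
    obtain ⟨⟨u, ⟨_, n, rfl⟩⟩, hun⟩ := IsLocalization.surj (Submonoid.powers h) x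
    have h2 := congrArg g hun
    rw [map_mul, hx, zero_mul, hg] at h2
    have h3 : u = 0 := hinjA u h2.symm
    have h4 : x * algebraMap A[X] (Localization.Away h) (h ^ n) = 0 := by
      rw [show x * algebraMap A[X] (Localization.Away h) (h ^ n) = _ from hun, h3, map_zero]
    exact (IsLocalization.map_units (Localization.Away h)
      (⟨h ^ n, n, rfl⟩ : Submonoid.powers h)).mul_left_eq_zero.1 h4
  · intro z hz
    have hdvd : q' ⟨z, hz⟩ ∣ h := Finset.dvd_prod_of_mem q' (Finset.mem_univ _)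
    have hu : IsUnit (algebraMap A[X] (Localization.Away h) (q' ⟨z, hz⟩)) :=
      isUnit_of_dvd_unit (map_dvd _ hdvd) (IsLocalization.Away.algebraMap_isUnit h)
    obtain ⟨e, he⟩ := hu
    refine ⟨algebraMap A[X] (Localization.Away h) (p' ⟨z, hz⟩) *
      ((e⁻¹ : (Localization.Away h)ˣ) : Localization.Away h), ?_⟩
    have h2 : g (e : Localization.Away h) = aeval t (pq ⟨z, hz⟩).2 := by
      rw [he, hg, ← haev, hq']
    have h3 : g ((e⁻¹ : (Localization.Away h)ˣ) : Localization.Away h) *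
        g (e : Localization.Away h) = 1 := by
      rw [← map_mul, Units.inv_mul, map_one]
    rw [map_mul, hg, ← haev, hp']
    have h4 := hpq ⟨z, hz⟩
    rw [h2] at h3
    change _ = (⟨z, hz⟩ : Z).1
    rw [h4, eq_div_iff (hq _), mul_assoc, h3, mul_one]

section

variable {K N N' : Type} [Field K] [Algebra ℂ K] [Field N] [Algebra ℂ N] [Field N'] [Algebra ℂ N']
variable {S : Scheme.{0}} {f : S ⟶ Spec (.of ℂ)} [IsProper f] {C : Type} [CommRing C] [Algebra ℂ C]
  [Algebra.FiniteType ℂ C] {j : Spec (.of C) ⟶ S}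
  {hj : j ≫ f = Spec.map (CommRingCat.ofHom (algebraMap ℂ C))}

/-- Elements fixed by the automorphisms over `F(t)`. -/
theorem mem_adjoin_of_fixed [IsAlgClosed N] (F : IntermediateField ℂ N) {t : N}
    (halg : Algebra.IsAlgebraic (IntermediateField.adjoin F {t}) N) (y : N)
    (hy : ∀ g : N ≃ₐ[ℂ] N, (∀ x ∈ F, g x = x) → g t = t → g y = y) :
    y ∈ IntermediateField.adjoin F {t} := by
  let L : IntermediateField ℂ N := (IntermediateField.adjoin F {t}).restrictScalars ℂ
  have h1 : y ∈ L := by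
    refine mem_of_fixed L halg y fun g hg => hy g (fun x hx => hg x ?_) (hg t ?_)
    · exact (IntermediateField.adjoin F {t}).algebraMap_mem ⟨x, hx⟩
    · exact IntermediateField.mem_adjoin_simple_self F t
  exact h1

theorem homot_set [IsAlgClosed N] (F : IntermediateField ℂ N) {t : N} (ht : Transcendental F t)
    (halg : Algebra.IsAlgebraic (IntermediateField.adjoin F {t}) N) (T : Finset (K →ₐ[ℂ] N))
    (hT : ∀ g : N ≃ₐ[ℂ] N, (∀ x ∈ F, g x = x) → g t = t → ∀ φ ∈ T, g.toAlgHom.comp φ ∈ T)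
    (i : C →ₐ[ℂ] K) (τ τ' : N →ₐ[ℂ] N') (hτ : ∀ x ∈ F, τ x = τ' x) :
    HasVal f j hj (Rat f) N' (∑ φ ∈ T, Finsupp.single ((τ.comp φ).comp i) (1 : ℤ) -
      ∑ φ ∈ T, Finsupp.single ((τ'.comp φ).comp i) (1 : ℤ)) 0 := by
  classical
  obtain ⟨s, hs⟩ := (inferInstance : Algebra.FiniteType ℂ C).out
  obtain ⟨κ, hκ⟩ := exists_separating T
  have himage : ∀ g : N ≃ₐ[ℂ] N, (∀ x ∈ F, g x = x) → g t = t →
      T.image (fun φ => g.toAlgHom.comp φ) = T := by
    intro g hg hgt
    apply Finset.eq_of_subset_of_card_le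
    · intro ψ hψ
      obtain ⟨φ, hφ, rfl⟩ := Finset.mem_image.1 hψ
      exact hT g hg hgt φ hφ
    · rw [Finset.card_image_of_injective]
      intro φ ψ h
      apply AlgHom.ext
      intro k
      exact g.injective (DFunLike.congr_fun h k)
  have hvs : Set.InjOn (fun φ : K →ₐ[ℂ] N => φ κ) (T : Set (K →ₐ[ℂ] N)) :=
    fun φ hφ ψ hψ h => hκ φ hφ ψ hψ h
  -- interpolation polynomials
  have hinter : ∀ c : C, ∃ Q : N[X], (∀ m, Q.coeff m ∈ IntermediateField.adjoin F {t}) ∧
      ∀ φ ∈ T, Q.eval (φ κ) = φ (i c) := by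
    intro c
    let Q : Polynomial N := Lagrange.interpolate T (fun φ => φ κ) (fun φ => φ (i c))
    have hQe : ∀ φ ∈ T, Q.eval (φ κ) = φ (i c) := fun φ hφ =>
      Lagrange.eval_interpolate_at_node (fun φ : K →ₐ[ℂ] N => φ (i c)) hvs hφ
    refine ⟨Q, fun m => mem_adjoin_of_fixed F halg _ fun g hg hgt => ?_, hQe⟩
    have h1 : Q.map (g : N →+* N) = Q := by
      apply Lagrange.eq_interpolate_of_eval_eq (fun φ : K →ₐ[ℂ] N => φ (i c)) hvs
      · refine lt_of_le_of_lt Polynomial.degree_map_le ?_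
        exact Lagrange.degree_interpolate_lt _ hvs
      · intro ψ hψ
        rw [← himage g hg hgt, Finset.mem_image] at hψ
        obtain ⟨φ, hφ, rfl⟩ := hψ
        change (Q.map (g : N →+* N)).eval ((g : N →+* N) (φ κ)) = g (φ (i c))
        rw [Polynomial.eval_map, Polynomial.eval₂_hom, hQe φ hφ]
        rfl
    have h3 := congrArg (fun q => q.coeff m) h1
    simp only [Polynomial.coeff_map] at h3
    exact h3
  choose Q hQF hQ using hinter
  let F₀ : N[X] := ∏ φ ∈ T, (X - Polynomial.C (φ κ))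
  have hF₀F : ∀ m, F₀.coeff m ∈ IntermediateField.adjoin F {t} := by
    intro m
    refine mem_adjoin_of_fixed F halg _ fun g hg hgt => ?_
    have h1 : F₀.map (g : N →+* N) = F₀ := by
      change (∏ φ ∈ T, (X - Polynomial.C (φ κ))).map (g : N →+* N) = ∏ φ ∈ T, (X - Polynomial.C (φ κ))
      rw [Polynomial.map_prod]
      conv_rhs => rw [← himage g hg hgt]
      rw [Finset.prod_image]
      · refine Finset.prod_congr rfl fun φ _ => ?_
        rw [Polynomial.map_sub, Polynomial.map_X, Polynomial.map_C]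
        rfl
      · intro φ _ ψ _ h
        apply AlgHom.ext
        intro k
        exact g.injective (DFunLike.congr_fun h k)
    have h3 := congrArg (fun q => q.coeff m) h1
    simp only [Polynomial.coeff_map] at h3
    exact h3
  let Z : Finset N := F₀.coeffs ∪ s.biUnion fun c => (Q c).coeffs
  have hZF : ∀ z ∈ Z, z ∈ IntermediateField.adjoin F {t} := by
    intro z hz
    rcases Finset.mem_union.1 hz with h | h
    · obtain ⟨m, -, rfl⟩ := Polynomial.mem_coeffs_iff.1 h
      exact hF₀F m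
    · obtain ⟨c, -, hc⟩ := Finset.mem_biUnion.1 h
      obtain ⟨m, -, rfl⟩ := Polynomial.mem_coeffs_iff.1 hc
      exact hQF c m
  obtain ⟨A, hAfg, hAF, h, g, hg, hginj, hgZ⟩ := exists_line_model F ht Z hZF
  have hliftP : ∀ q : N[X], q.coeffs ⊆ Z → ∃ q' : (Localization.Away h)[X],
      q'.map g.toRingHom = q := by
    intro q hq
    have h1 : q ∈ Polynomial.lifts g.toRingHom := by
      rw [Polynomial.lifts_iff_coeff_lifts]
      intro m
      by_cases h0 : q.coeff m = 0
      · exact ⟨0, by rw [map_zero, h0]⟩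
      · obtain ⟨w, hw⟩ := hgZ (q.coeff m) (hq (Polynomial.coeff_mem_coeffs h0))
        exact ⟨w, hw⟩
    exact (Polynomial.mem_lifts _).1 h1
  obtain ⟨G, hG⟩ := hliftP F₀ Finset.subset_union_left
  have hGm : G.Monic := by
    have h1 : (G.map g.toRingHom).Monic := by
      rw [hG]
      exact Polynomial.monic_prod_of_monic _ _ (fun φ _ => Polynomial.monic_X_sub_C _)
    exact Polynomial.monic_of_injective (f := g.toRingHom) hginj h1
  let e : T ≃ Fin T.card := T.equivFin
  let Φ : Fin T.card → (K →ₐ[ℂ] N) := fun m => (e.symm m).1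
  have hΦT : ∀ m, Φ m ∈ T := fun m => (e.symm m).2
  let a : Fin T.card → N := fun m => Φ m κ
  have ha : Function.Injective a := by
    intro m m' h
    have h1 := hκ _ (hΦT m) _ (hΦT m') h
    exact e.symm.injective (Subtype.ext h1)
  have hprod : G.map g.toRingHom = ∏ m, (X - Polynomial.C (a m)) := by
    rw [hG]
    change ∏ φ ∈ T, (X - Polynomial.C (φ κ)) = _
    rw [← Finset.prod_coe_sort]
    exact (Equiv.prod_comp e.symm (fun φ : T => (X - Polynomial.C (φ.1 κ)))).symm
  have hroot : ∀ m, G.eval₂ g.toRingHom (a m) = 0 := by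
    intro m
    rw [← Polynomial.eval_map, hprod, Polynomial.eval_prod]
    apply Finset.prod_eq_zero (Finset.mem_univ m)
    simp
  let ev : Fin T.card → (AdjoinRoot G →ₐ[ℂ] N) := fun m =>
    AdjoinRoot.liftAlgHom G g (a m) (hroot m)
  have hevmk : ∀ m q, ev m (AdjoinRoot.mk G q) = q.eval₂ g.toRingHom (a m) := fun m q =>
    AdjoinRoot.liftAlgHom_mk _ _ _ _ _
  let E : AdjoinRoot G →ₐ[ℂ] (Fin T.card → N) := AlgHom.pi ev
  have hE : Function.Injective E := by
    rw [injective_iff_map_eq_zero]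
    intro y hy
    obtain ⟨q, rfl⟩ := AdjoinRoot.mk_surjective y
    rw [AdjoinRoot.mk_eq_zero, ← Polynomial.map_dvd_map g.toRingHom hginj hGm, hprod]
    apply Finset.prod_dvd_of_coprime
    · intro m _ m' _ hne
      exact Polynomial.pairwise_coprime_X_sub_C ha hne
    · intro m _
      rw [Polynomial.dvd_iff_isRoot, Polynomial.IsRoot, Polynomial.eval_map, ← hevmk]
      exact congrFun hy m
  let ΦC : C →ₐ[ℂ] (Fin T.card → N) := AlgHom.pi fun m => (Φ m).comp i
  have hrange : ∀ c, ΦC c ∈ E.range := by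
    intro c
    have hc : c ∈ Algebra.adjoin ℂ (s : Set C) := by rw [hs]; trivial
    induction hc using Algebra.adjoin_induction with
    | mem c hc =>
      obtain ⟨q', hq'⟩ := hliftP (Q c) ((Finset.subset_biUnion_of_mem (fun c => (Q c).coeffs)
        hc).trans Finset.subset_union_right)
      refine ⟨AdjoinRoot.mk G q', ?_⟩
      funext m
      change ev m (AdjoinRoot.mk G q') = Φ m (i c)
      rw [hevmk, ← Polynomial.eval_map, hq']
      exact hQ c _ (hΦT m)
    | algebraMap a =>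
      rw [AlgHom.commutes]
      exact Subalgebra.algebraMap_mem _ _
    | add c d _ _ hc hd => rw [map_add]; exact add_mem hc hd
    | mul c d _ _ hc hd => rw [map_mul]; exact mul_mem hc hd
  let eq := AlgEquiv.ofInjective E hE
  let θ : C →ₐ[ℂ] AdjoinRoot G := eq.symm.toAlgHom.comp (ΦC.codRestrict E.range hrange)
  have hθ : ∀ m, (ev m).comp θ = (Φ m).comp i := by
    intro m
    apply AlgHom.ext
    intro c
    have h1 := eq.apply_symm_apply (ΦC.codRestrict E.range hrange c)
    exact congrFun (congrArg Subtype.val h1) m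
  haveI : Algebra.FiniteType ℂ A := A.fg_iff_finiteType.1 hAfg
  haveI : Algebra.FiniteType ℂ A[X] := Algebra.FiniteType.trans (S := A) inferInstance inferInstance
  haveI : Algebra.FiniteType ℂ (Localization.Away h) := by
    haveI : Algebra.FiniteType A[X] (Localization.Away h) :=
      IsLocalization.finiteType_of_monoid_fg (Submonoid.powers h) _
    exact Algebra.FiniteType.trans (S := A[X]) inferInstance inferInstance
  have hprodτ : ∀ σ : N →ₐ[ℂ] N', G.map (σ.comp g).toRingHom =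
      ∏ m, (X - Polynomial.C (σ (a m))) := by
    intro σ
    have h1 := congrArg (Polynomial.map σ.toRingHom) hprod
    rw [Polynomial.map_map, Polynomial.map_prod] at h1
    simp only [Polynomial.map_sub, Polynomial.map_X, Polynomial.map_C] at h1
    exact h1
  have hfin := joined_roots (f := f) (j := j) (hj := hj) (τ.comp g) (τ'.comp g) G hGm
    (fun m => τ (a m)) (fun m => τ' (a m)) (τ.toRingHom.injective.comp ha)
    (τ'.toRingHom.injective.comp ha) (hprodτ τ) (hprodτ τ') θ (fun m => τ.comp (ev m))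
    (fun m => τ'.comp (ev m)) (by
      intro m r
      change τ (ev m (AdjoinRoot.of G r)) = τ (g r)
      rw [← AdjoinRoot.mk_C, hevmk, eval₂_C]
      rfl) (by
      intro m
      change τ (ev m (AdjoinRoot.root G)) = τ (a m)
      rw [← AdjoinRoot.mk_X, hevmk, eval₂_X]) (by
      intro m r
      change τ' (ev m (AdjoinRoot.of G r)) = τ' (g r)
      rw [← AdjoinRoot.mk_C, hevmk, eval₂_C]
      rfl) (by
      intro m
      change τ' (ev m (AdjoinRoot.root G)) = τ' (a m)
      rw [← AdjoinRoot.mk_X, hevmk, eval₂_X]) (by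
      intro B hgB hgB' ξ
      apply joined_away
      intro x
      change ξ ⟨τ (g _), _⟩ = ξ ⟨τ' (g _), _⟩
      congr 1
      apply Subtype.ext
      change τ (g _) = τ' (g _)
      rw [hg, aeval_C]
      exact hτ _ (hAF _ x.2))
  have hcomp : ∀ (σ : N →ₐ[ℂ] N') m, (σ.comp (ev m)).comp θ = (σ.comp (Φ m)).comp i := by
    intro σ m
    rw [AlgHom.comp_assoc, hθ, AlgHom.comp_assoc]
  simp only [hcomp] at hfin
  have hlast : ∀ σ : N →ₐ[ℂ] N', ∑ m, Finsupp.single ((σ.comp (Φ m)).comp i) (1 : ℤ) =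
      ∑ φ ∈ T, Finsupp.single ((σ.comp φ).comp i) (1 : ℤ) := by
    intro σ
    rw [← Finset.sum_coe_sort T (fun φ => Finsupp.single ((σ.comp φ).comp i) (1 : ℤ))]
    exact Equiv.sum_comp e.symm (fun φ : T => Finsupp.single ((σ.comp φ.1).comp i) (1 : ℤ))
  rw [← hlast, ← hlast]
  exact hfin

/-- **Homotopy**, on a model. -/
theorem homot_val [IsAlgClosed N] (F : IntermediateField ℂ N) {t : N} (ht : Transcendental F t)
    (halg : Algebra.IsAlgebraic (IntermediateField.adjoin F {t}) N) (v : (K →ₐ[ℂ] N) →₀ ℤ)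
    (hv : ∀ g : N ≃ₐ[ℂ] N, (∀ x ∈ F, g x = x) → g t = t →
      Finsupp.mapDomain (fun φ : K →ₐ[ℂ] N => g.toAlgHom.comp φ) v = v)
    (τ τ' : N →ₐ[ℂ] N') (hτ : ∀ x ∈ F, τ x = τ' x) (i : C →ₐ[ℂ] K) :
    HasVal f j hj (Rat f) N' (Finsupp.mapDomain (fun φ : K →ₐ[ℂ] N' => φ.comp i)
      (Finsupp.mapDomain (fun φ : K →ₐ[ℂ] N => τ.comp φ) v -
        Finsupp.mapDomain (fun φ : K →ₐ[ℂ] N => τ'.comp φ) v)) 0 := by
  classical
  have hvg : ∀ g : N ≃ₐ[ℂ] N, (∀ x ∈ F, g x = x) → g t = t → ∀ φ : K →ₐ[ℂ] N,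
      v (g.toAlgHom.comp φ) = v φ := by
    intro g hg hgt φ
    have hinj : Function.Injective (fun φ : K →ₐ[ℂ] N => g.toAlgHom.comp φ) := by
      intro φ ψ h
      apply AlgHom.ext
      intro k
      exact g.injective (DFunLike.congr_fun h k)
    have h1 := Finsupp.mapDomain_apply hinj v φ
    rw [hv g hg hgt] at h1
    exact h1
  have hdec : ∀ σ : N →ₐ[ℂ] N', Finsupp.mapDomain (fun φ : K →ₐ[ℂ] N' => φ.comp i)
      (Finsupp.mapDomain (fun φ : K →ₐ[ℂ] N => σ.comp φ) v) =
      ∑ c ∈ v.support.image v, c • ∑ φ ∈ v.support with v φ = c,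
        Finsupp.single ((σ.comp φ).comp i) (1 : ℤ) := by
    intro σ
    rw [← Finsupp.mapDomain_comp, Finsupp.mapDomain, Finsupp.sum,
      ← Finset.sum_fiberwise_of_maps_to (s := v.support) (t := v.support.image v) (g := v)
      (fun φ hφ => Finset.mem_image_of_mem _ hφ)]
    refine Finset.sum_congr rfl fun c _ => ?_
    rw [Finset.smul_sum]
    refine Finset.sum_congr rfl fun φ hφ => ?_
    rw [(Finset.mem_filter.1 hφ).2, Finsupp.smul_single, smul_eq_mul, mul_one]
    rfl
  have hsub : Finsupp.mapDomain (fun φ : K →ₐ[ℂ] N' => φ.comp i)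
      (Finsupp.mapDomain (fun φ : K →ₐ[ℂ] N => τ.comp φ) v -
        Finsupp.mapDomain (fun φ : K →ₐ[ℂ] N => τ'.comp φ) v) =
      Finsupp.mapDomain (fun φ : K →ₐ[ℂ] N' => φ.comp i)
        (Finsupp.mapDomain (fun φ : K →ₐ[ℂ] N => τ.comp φ) v) -
      Finsupp.mapDomain (fun φ : K →ₐ[ℂ] N' => φ.comp i)
        (Finsupp.mapDomain (fun φ : K →ₐ[ℂ] N => τ'.comp φ) v) :=
    map_sub (Finsupp.mapDomain.addMonoidHom (fun φ : K →ₐ[ℂ] N' => φ.comp i) (M := ℤ)) _ _
  rw [hsub, hdec, hdec, ← Finset.sum_sub_distrib]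
  have hsum : ∀ (J : Finset ℤ) (w : ℤ → ((C →ₐ[ℂ] N') →₀ ℤ)),
      (∀ c ∈ J, HasVal f j hj (Rat f) N' (w c) 0) →
      HasVal f j hj (Rat f) N' (∑ c ∈ J, w c) 0 := by
    intro J w
    induction J using Finset.induction_on with
    | empty => intro _; rw [Finset.sum_empty]; exact HasVal.zero
    | insert c J hc ih =>
      intro hw
      rw [Finset.sum_insert hc]
      have h1 := (hw c (Finset.mem_insert_self _ _)).add
        (ih fun d hd => hw d (Finset.mem_insert_of_mem hd))
      rwa [add_zero] at h1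
  refine hsum _ _ fun c _ => ?_
  rw [← smul_sub]
  have h1 := homot_set (f := f) (j := j) (hj := hj) F ht halg
    (v.support.filter fun φ => v φ = c) (by
      intro g hg hgt φ hφ
      rw [Finset.mem_filter, Finsupp.mem_support_iff] at hφ ⊢
      rw [hvg g hg hgt]
      exact hφ) i τ τ' hτ
  obtain ⟨A₀, hA₀, h2⟩ := h1
  refine ⟨A₀, hA₀, fun B hB ξ => ?_⟩
  rw [map_zsmul, map_zsmul, h2 B hB ξ, smul_zero]

end

/-- **Homotopy.** -/
theorem homotopy {K N N' : Type} [Field K] [Algebra ℂ K] [Field N] [Algebra ℂ N] [Field N']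
    [Algebra ℂ N'] [IsAlgClosed N] (F : IntermediateField ℂ N) {t : N} (ht : Transcendental F t)
    (halg : Algebra.IsAlgebraic (IntermediateField.adjoin F {t}) N) (v : (K →ₐ[ℂ] N) →₀ ℤ)
    (hv : ∀ g : N ≃ₐ[ℂ] N, (∀ x ∈ F, g x = x) → g t = t →
      Finsupp.mapDomain (fun φ : K →ₐ[ℂ] N => g.toAlgHom.comp φ) v = v)
    (τ τ' : N →ₐ[ℂ] N') (hτ : ∀ x ∈ F, τ x = τ' x) {m : ℤ} :
    Finsupp.mapDomain (fun φ : K →ₐ[ℂ] N => τ.comp φ) v -
      Finsupp.mapDomain (fun φ : K →ₐ[ℂ] N => τ'.comp φ) v ∈ Rel m K N' := by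
  apply Rel.of_zero
  intro S f _ C _ _ _ j hj i R hR _
  exact Good.mono hR (homot_val (f := f) (j := j) (hj := hj) F ht halg v hv τ τ' hτ i).good

end Vale.Agent.P297.H521
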