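import Vale.Agent.P297.H521.RulN
import Vale.Agent.P297.H521.Homot
import Vale.Agent.P297.Gen.Setup

/-!
Cycles parametrised by the lines of a ruling do not depend on the line.
-/

set_option linter.unusedSectionVars false
set_option linter.style.haveILetI false

open IntermediateField Polynomial

namespace Vale.Agent.P297.C8

open Vale.Agent.P297 Vale.Agent.P297.Gen Vale.Agent.P297.H839 Vale.Agent.P297.H516
open Vale.Agent.P297.H729 Vale.Agent.P297.H72 Vale.Agent.P297.H521

section closed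

variable {N : Type} [Field N] [Algebra ℂ N] [IsAlgClosed N]

theorem mem_cl0_adj {S : Set N} {x : N} : x ∈ cl0 S ↔ IsAlgebraic (Algebra.adjoin ℂ S) x := by
  rw [mem_cl0]
  exact IntermediateField.isAlgebraic_adjoin_iff

theorem isAlgClosed_cl0 (S : Set N) : IsAlgClosed (cl0 S) := by
  refine IsAlgClosed.of_exists_root _ fun p _ hirr => ?_
  obtain ⟨r, hr⟩ := exists_root_mem _ (cl0_closed S) p hirr.natDegree_pos
  exact ⟨r, hr⟩

theorem indep_snoc {n : ℕ} {v : Fin n → N} (hv : AlgebraicIndependent ℂ v) {x : N}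
    (hx : x ∉ cl0 (Set.range v)) : AlgebraicIndependent ℂ (Fin.snoc v x : Fin (n + 1) → N) := by
  have h1 := (hv.option_iff_transcendental x).2 (by rwa [mem_cl0_adj] at hx)
  have h2 := h1.comp finSuccEquivLast finSuccEquivLast.injective
  have h3 : (fun o : Option (Fin n) => o.elim x v) ∘ finSuccEquivLast =
      (Fin.snoc v x : Fin (n + 1) → N) := by
    funext i
    refine Fin.lastCases ?_ (fun j => ?_) i
    · simp
    · simp
  rwa [h3] at h2

/-- A member of an independent family is transcendental over the others. -/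
theorem indep_notMem {ι : Type} {v : ι → N} (hv : AlgebraicIndependent ℂ v) {s : Set ι} {i : ι}
    (hi : i ∉ s) : v i ∉ cl0 (v '' s) := by
  rw [mem_cl0]
  exact (IntermediateField.transcendental_adjoin_iff).2 (hv.transcendental_adjoin hi)

theorem cl0_pair_range (x y : N) : Set.range ![x, y] = {x, y} := by
  ext z
  simp only [Set.mem_range, Set.mem_insert_iff, Set.mem_singleton_iff]
  constructor
  · rintro ⟨i, rfl⟩
    fin_cases i
    · exact Or.inl rfl
    · exact Or.inr rfl
  · rintro (rfl | rfl)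
    · exact ⟨0, rfl⟩
    · exact ⟨1, rfl⟩

theorem indep_four {x y a b : N} (hxy : AlgebraicIndependent ℂ ![x, y]) (ha : a ∉ cl0 {x, y})
    (hb : b ∉ clo (cl0 {x, y}) {a}) : AlgebraicIndependent ℂ ![x, y, a, b] := by
  have k3 : AlgebraicIndependent ℂ ![x, y, a] := by
    have h := indep_snoc hxy (x := a) (by rwa [cl0_pair_range])
    have h3 : (Fin.snoc ![x, y] a : Fin 3 → N) = ![x, y, a] := by
      funext i
      fin_cases i <;> rfl
    rwa [h3] at h
  have h := indep_snoc k3 (x := b) (by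
    intro h0
    apply hb
    refine cl0_le (clo_closed _ _) ?_ h0
    rintro _ ⟨i, rfl⟩
    fin_cases i
    · exact le_clo _ _ (subset_cl0 _ (by simp))
    · exact le_clo _ _ (subset_cl0 _ (by simp))
    · exact subset_clo _ _ rfl)
  have h3 : (Fin.snoc ![x, y, a] b : Fin 4 → N) = ![x, y, a, b] := by
    funext i
    fin_cases i <;> rfl
  rwa [h3] at h

/-- Everything is algebraic over four independent elements. -/
theorem all_of_four (h4 : Algebra.trdeg ℂ N = 4) {v : Fin 4 → N} (hv : AlgebraicIndependent ℂ v)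
    (z : N) : z ∈ cl0 (Set.range v) := by
  have h1 := hv.isTranscendenceBasis_of_trdeg_le_of_finite (by
    rw [h4, Cardinal.mk_fin]
    rfl)
  rw [mem_cl0_adj]
  exact h1.isAlgebraic.isAlgebraic z

theorem full_four (h4 : Algebra.trdeg ℂ N = 4) {x y a b : N}
    (hxy : AlgebraicIndependent ℂ ![x, y]) (ha : a ∉ cl0 {x, y})
    (hb : b ∉ clo (cl0 {x, y}) {a}) {M : IntermediateField ℂ N}
    (hM : ∀ u, IsAlgebraic M u → u ∈ M) (hk : cl0 {x, y} ≤ M) (hma : a ∈ M) (hmb : b ∈ M)
    (z : N) : z ∈ M := by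
  refine cl0_le hM ?_ (all_of_four h4 (indep_four hxy ha hb) z)
  rintro _ ⟨i, rfl⟩
  fin_cases i
  · exact hk (subset_cl0 _ (by simp))
  · exact hk (subset_cl0 _ (by simp))
  · exact hma
  · exact hmb

theorem exists_notMem_three (h4 : Algebra.trdeg ℂ N = 4) (a b c : N) :
    ∃ t, t ∉ cl0 ({a, b, c} : Set N) := by
  by_contra hcon
  push Not at hcon
  have h1 : Algebra.IsAlgebraic (Algebra.adjoin ℂ ({a, b, c} : Set N)) N :=
    ⟨fun z => mem_cl0_adj.1 (hcon z)⟩
  have h2 := Algebra.IsAlgebraic.trdeg_le_cardinalMk ℂ ({a, b, c} : Set N)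
  have h3 : Cardinal.mk ({a, b, c} : Set N) ≤ 3 := by
    classical
    have k1 : (({a, b, c} : Finset N) : Set N) = {a, b, c} := by simp
    have k2 : ({a, b, c} : Finset N).card ≤ 3 := Finset.card_le_three
    rw [← k1]
    refine (Cardinal.mk_coe_finset (s := ({a, b, c} : Finset N))).le.trans ?_
    exact_mod_cast k2
  rw [h4] at h2
  have h5 := h2.trans h3
  have h6 : (4 : ℕ) ≤ 3 := by exact_mod_cast h5
  omega

theorem exists_notMem_clo (h4 : Algebra.trdeg ℂ N = 4) (x y a : N) :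
    ∃ t, t ∉ clo (cl0 {x, y}) {a} := by
  obtain ⟨t, ht⟩ := exists_notMem_three h4 x y a
  refine ⟨t, fun h => ht ?_⟩
  refine clo_le (cl0_closed _) (cl0_le (cl0_closed _) ?_) ?_ h
  · rintro z (rfl | rfl)
    · exact subset_cl0 _ (by simp)
    · exact subset_cl0 _ (by simp)
  · rintro _ rfl
    exact subset_cl0 _ (by simp)

theorem clo_single_le' {M M' : IntermediateField ℂ N} (hM' : ∀ u, IsAlgebraic M' u → u ∈ M')
    (h : M ≤ M') {x : N} (hx : x ∈ M') : clo M {x} ≤ M' :=
  clo_le hM' h (Set.singleton_subset_iff.2 hx)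

/-- Two elements outside of a closed field of transcendence degree two are outside of a common
closed field of transcendence degree three. -/
theorem exists_hyper (h4 : Algebra.trdeg ℂ N = 4) {x y : N}
    (hxy : AlgebraicIndependent ℂ ![x, y]) {t t' : N} (ht : t ∉ cl0 {x, y})
    (ht' : t' ∉ cl0 {x, y}) :
    ∃ M : IntermediateField ℂ N, (∀ u, IsAlgebraic M u → u ∈ M) ∧ cl0 {x, y} ≤ M ∧ t ∉ M ∧
      t' ∉ M ∧ (∀ v : N, IsAlgebraic (IntermediateField.adjoin M {t}) v) ∧
      (∀ v : N, IsAlgebraic (IntermediateField.adjoin M {t'}) v) := by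
  set κ := cl0 ({x, y} : Set N) with hκ
  have hκc : ∀ u, IsAlgebraic κ u → u ∈ κ := cl0_closed _
  have key : ∀ s, t ∉ clo κ {s} → t' ∉ clo κ {s} → s ∉ κ →
      ∃ M : IntermediateField ℂ N, (∀ u, IsAlgebraic M u → u ∈ M) ∧ κ ≤ M ∧ t ∉ M ∧
      t' ∉ M ∧ (∀ v : N, IsAlgebraic (IntermediateField.adjoin M {t}) v) ∧
      (∀ v : N, IsAlgebraic (IntermediateField.adjoin M {t'}) v) := by
    intro s h1 h2 hs
    have hh : ∀ r, r ∉ clo κ {s} → ∀ v : N,
        IsAlgebraic (IntermediateField.adjoin (clo κ {s}) {r}) v := by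
      intro r hr v
      rw [← mem_clo]
      exact full_four h4 hxy hs hr (M := clo (clo κ {s}) {r}) (clo_closed _ _)
        ((le_clo κ {s}).trans (le_clo _ _)) (le_clo _ _ (subset_clo _ _ (Set.mem_singleton _)))
        (subset_clo _ _ (Set.mem_singleton _)) v
    exact ⟨clo κ {s}, clo_closed _ _, le_clo _ _, h1, h2, hh t h1, hh t' h2⟩
  by_cases h1 : t' ∈ clo κ {t}
  · obtain ⟨s, hs⟩ := exists_notMem_clo h4 x y t
    have hsκ : s ∉ κ := fun h0 => hs (le_clo _ _ h0)
    refine key s (fun h2 => hs (exchange hκc h2 ht)) (fun h2 => hs ?_) hsκ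
    exact clo_single_le' (clo_closed _ _) (le_clo _ _) h1 (exchange hκc h2 ht')
  · have hxx : ∀ z, z ∈ clo κ {t + t'} → (z = t ∨ z = t') → t' ∈ clo κ {t} := by
      intro z hz hzx
      have h2 : t ∈ clo κ {t + t'} := by
        rcases hzx with rfl | rfl
        · exact hz
        · have h3 := sub_mem (subset_clo κ {t + z} (Set.mem_singleton _)) hz
          rwa [add_sub_cancel_right] at h3
      have h3 : t + t' ∈ clo κ {t} := exchange hκc h2 ht
      have h4 := sub_mem h3 (subset_clo κ {t} (Set.mem_singleton _))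
      rwa [add_sub_cancel_left] at h4
    refine key (t + t') (fun h2 => h1 (hxx _ h2 (Or.inl rfl)))
      (fun h2 => h1 (hxx _ h2 (Or.inr rfl))) (fun h2 => h1 ?_)
    have h4 := sub_mem (le_clo κ {t} h2) (subset_clo κ {t} (Set.mem_singleton _))
    rwa [add_sub_cancel_left] at h4

end closed

section move

variable {K N : Type} [Field K] [Algebra ℂ K] [Field N] [Algebra ℂ N] [IsAlgClosed N] {m : ℤ}

/-- **A rational parameter.** A cycle that depends rationally on a parameter `t` over the closed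
field `cl0 {x, y}` does not depend on `t`. -/
theorem param_const (h4 : Algebra.trdeg ℂ N = 4) {x y : N}
    (hxy : AlgebraicIndependent ℂ ![x, y]) (V : N → ((K →ₐ[ℂ] N) →₀ ℤ))
    (hV : ∀ g : N ≃ₐ[ℂ] N, (∀ a ∈ cl0 ({x, y} : Set N), g a = a) → ∀ t,
      Finsupp.mapDomain (fun φ : K →ₐ[ℂ] N => g.toAlgHom.comp φ) (V t) = V (g t))
    {t t' : N} (ht : t ∉ cl0 {x, y}) (ht' : t' ∉ cl0 {x, y}) : V t - V t' ∈ Rel m K N := by
  obtain ⟨M, hM, hκM, h1, h2, h3, h4'⟩ := exists_hyper h4 hxy ht ht'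
  obtain ⟨g, hg⟩ := exists_move M (z := t) (z' := t') (fun h => h1 (hM _ h)) (fun h => h2 (hM _ h))
    h3 h4'
  have hgM : ∀ a ∈ M, (g.restrictScalars ℂ) a = a := fun a ha => g.commutes ⟨a, ha⟩
  have h5 := homotopy (K := K) (N' := N) (m := m) M (t := t) (fun h => h1 (hM _ h)) ⟨h3⟩ (V t)
    (fun σ hσ hσt => by
      rw [hV σ (fun a ha => hσ a (hκM ha)), hσt])
    (AlgHom.id ℂ N) (g.restrictScalars ℂ).toAlgHom (fun a ha => (hgM a ha).symm)
  have h6 : Finsupp.mapDomain (fun φ : K →ₐ[ℂ] N => (AlgHom.id ℂ N).comp φ) (V t) = V t := by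
    have h7 : (fun φ : K →ₐ[ℂ] N => (AlgHom.id ℂ N).comp φ) = id := by
      funext φ
      exact AlgHom.id_comp φ
    rw [h7, Finsupp.mapDomain_id]
  rw [h6, hV (g.restrictScalars ℂ) (fun a ha => hgM a (hκM ha))] at h5
  have h8 : (g.restrictScalars ℂ) t = t' := hg
  rwa [h8] at h5

end move

end Vale.Agent.P297.C8
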