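import Vale.Agent.P297.H521.Homot
import Vale.Agent.P297.Gen.Setup

/-!
Equivariant families of cycles over a closed field do not depend on their parameters.
-/

set_option linter.unusedSectionVars false
set_option linter.style.haveILetI false

open IntermediateField Polynomial

namespace Vale.Agent.P297.H521

open Vale.Agent.P297 Vale.Agent.P297.Gen Vale.Agent.P297.H839 Vale.Agent.P297.H516
open Vale.Agent.P297.H729 Vale.Agent.P297.H72

section closed

variable {N : Type} [Field N] [Algebra ℂ N]

/-- A directed union of closed subfields is closed. -/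
theorem closed_iSup {ι : Type} [Nonempty ι] {t : ι → IntermediateField ℂ N}
    (hd : Directed (· ≤ ·) t) (ht : ∀ i, ∀ u, IsAlgebraic (t i) u → u ∈ t i) :
    ∀ u, IsAlgebraic (⨆ i, t i : IntermediateField ℂ N) u → u ∈ (⨆ i, t i) := by
  classical
  intro u hu
  obtain ⟨p, hp0, hp⟩ := hu
  have hmem : ∀ x : N, x ∈ (⨆ i, t i) ↔ ∃ i, x ∈ t i := by
    intro x
    rw [← SetLike.mem_coe, coe_iSup_of_directed hd, Set.mem_iUnion]
    rfl
  have h1 : ∀ n, ∃ i, ((p.coeff n : (⨆ i, t i : IntermediateField ℂ N)) : N) ∈ t i := fun n =>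
    (hmem _).1 (p.coeff n).2
  choose f hf using h1
  obtain ⟨z, hz⟩ := hd.finset_le (p.support.image f)
  have h2 : ∀ n, ((p.coeff n : (⨆ i, t i : IntermediateField ℂ N)) : N) ∈ t z := by
    intro n
    by_cases hn : n ∈ p.support
    · exact hz _ (Finset.mem_image_of_mem f hn) (hf n)
    · rw [Polynomial.notMem_support_iff.1 hn]
      exact zero_mem _
  refine (hmem u).2 ⟨z, ht z u ?_⟩
  refine isAlgebraic_of_coeff (p := p.map (algebraMap _ N)) ?_ ?_ ?_
  · intro n
    rw [coeff_map]
    exact h2 n
  · exact (Polynomial.map_ne_zero_iff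
      (algebraMap (⨆ i, t i : IntermediateField ℂ N) N).injective).2 hp0
  · rw [Polynomial.eval_map]
    exact hp

theorem clo_single {M M' : IntermediateField ℂ N} (hM' : ∀ u, IsAlgebraic M' u → u ∈ M')
    (h : M ≤ M') {x : N} (hx : x ∈ M') : clo M {x} ≤ M' :=
  clo_le hM' h (Set.singleton_subset_iff.2 hx)

theorem mem_clo_single (M : IntermediateField ℂ N) (x : N) : x ∈ clo M {x} :=
  subset_clo M {x} (Set.mem_singleton x)

/-- One of `t`, `t'`, `t + t'` is outside of two proper closed subfields. -/
theorem exists_out {M M' : IntermediateField ℂ N} {t t' : N} (ht : t ∉ M) (ht' : t' ∉ M') :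
    ∃ s, s ∉ M ∧ s ∉ M' := by
  by_cases h1 : t ∈ M'
  · by_cases h2 : t' ∈ M
    · refine ⟨t + t', fun h => ht ?_, fun h => ht' ?_⟩
      · have h3 := sub_mem h h2
        rwa [add_sub_cancel_right] at h3
      · have h3 := sub_mem h h1
        rwa [add_sub_cancel_left] at h3
    · exact ⟨t', h2, ht'⟩
  · exact ⟨t, ht, h1⟩

variable [IsAlgClosed N]

/-- Two elements outside of a closed field `F` are outside of a common closed field `M ≥ F` over
which they are transcendence bases. -/
theorem exists_hyper' {F : IntermediateField ℂ N} (hF : ∀ u, IsAlgebraic F u → u ∈ F) {t t' : N}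
    (ht : t ∉ F) (ht' : t' ∉ F) :
    ∃ M : IntermediateField ℂ N, (∀ u, IsAlgebraic M u → u ∈ M) ∧ F ≤ M ∧ t ∉ M ∧
      t' ∉ M ∧ (∀ v : N, IsAlgebraic (IntermediateField.adjoin M {t}) v) ∧
      (∀ v : N, IsAlgebraic (IntermediateField.adjoin M {t'}) v) := by
  let S : Set (IntermediateField ℂ N) :=
    {M | (∀ u, IsAlgebraic M u → u ∈ M) ∧ F ≤ M ∧ t ∉ M ∧ t' ∉ M}
  have hFS : F ∈ S := ⟨hF, le_rfl, ht, ht'⟩
  obtain ⟨M, hFM, hM⟩ := zorn_le_nonempty₀ S (by
    intro c hc hchain y hy
    haveI : Nonempty c := ⟨⟨y, hy⟩⟩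
    have hd : Directed (· ≤ ·) (fun M : c => (M : IntermediateField ℂ N)) := by
      intro a b
      rcases hchain.total a.2 b.2 with h | h
      · exact ⟨b, h, le_rfl⟩
      · exact ⟨a, le_rfl, h⟩
    have hmem : ∀ x : N, x ∈ (⨆ M : c, (M : IntermediateField ℂ N)) ↔
        ∃ M : c, x ∈ (M : IntermediateField ℂ N) := by
      intro x
      rw [← SetLike.mem_coe, coe_iSup_of_directed hd, Set.mem_iUnion]
      rfl
    refine ⟨⨆ M : c, (M : IntermediateField ℂ N),
      ⟨closed_iSup hd fun M => (hc M.2).1, ?_, ?_, ?_⟩, ?_⟩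
    · exact (hc hy).2.1.trans (le_iSup (fun M : c => (M : IntermediateField ℂ N)) ⟨y, hy⟩)
    · intro h
      obtain ⟨M, hM⟩ := (hmem t).1 h
      exact (hc M.2).2.2.1 hM
    · intro h
      obtain ⟨M, hM⟩ := (hmem t').1 h
      exact (hc M.2).2.2.2 hM
    · intro z hz
      exact le_iSup (fun M : c => (M : IntermediateField ℂ N)) ⟨z, hz⟩) F hFS
  obtain ⟨⟨hMc, -, hMt, hMt'⟩, hmax⟩ := hM
  have key : ∀ z, t ∉ clo M {z} → t' ∉ clo M {z} → z ∈ M := by
    intro z h1 h2
    have h3 : clo M {z} ∈ S := ⟨clo_closed _ _, hFM.trans (le_clo _ _), h1, h2⟩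
    exact hmax h3 (le_clo _ _) (mem_clo_single M z)
  have htt : t' ∈ clo M {t} := by
    by_contra h1
    have h2 : t + t' ∈ M := by
      refine key _ (fun h => h1 ?_) (fun h => h1 ?_)
      · have h3 : t + t' ∈ clo M {t} := exchange hMc h hMt
        have h4 := sub_mem h3 (mem_clo_single M t)
        rwa [add_sub_cancel_left] at h4
      · have h3 : t' ∈ clo M {t + t'} := h
        have h4 : t ∈ clo M {t + t'} := by
          have h5 := sub_mem (mem_clo_single M (t + t')) h3
          rwa [add_sub_cancel_right] at h5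
        have h5 : t + t' ∈ clo M {t} := exchange hMc h4 hMt
        have h6 := sub_mem h5 (mem_clo_single M t)
        rwa [add_sub_cancel_left] at h6
    have h3 := sub_mem (le_clo M {t} h2) (mem_clo_single M t)
    rw [add_sub_cancel_left] at h3
    exact h1 h3
  have hall : ∀ z, z ∈ clo M {t} := by
    intro z
    by_contra h1
    refine h1 (le_clo M {t} (key z (fun h => h1 (exchange hMc h hMt)) (fun h => h1 ?_)))
    exact clo_single (clo_closed _ _) (le_clo _ _) htt (exchange hMc h hMt')
  have hall' : ∀ z, z ∈ clo M {t'} := fun z =>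
    clo_single (clo_closed M {t'}) (le_clo _ _) (exchange hMc htt hMt') (hall z)
  exact ⟨M, hMc, hFM, hMt, hMt', fun v => mem_clo.1 (hall v), fun v => mem_clo.1 (hall' v)⟩

end closed

section move

variable {K N : Type} [Field K] [Algebra ℂ K] [Field N] [Algebra ℂ N] [IsAlgClosed N] {m : ℤ}

/-- **A rational parameter.** A cycle that depends rationally on a parameter `t` over a closed
field `F` does not depend on `t`. -/
theorem param_const (F : IntermediateField ℂ N) (hF : ∀ u, IsAlgebraic F u → u ∈ F)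
    (V : N → ((K →ₐ[ℂ] N) →₀ ℤ))
    (hV : ∀ g : N ≃ₐ[ℂ] N, (∀ a ∈ F, g a = a) → ∀ t,
      Finsupp.mapDomain (fun φ : K →ₐ[ℂ] N => g.toAlgHom.comp φ) (V t) = V (g t))
    {t t' : N} (ht : t ∉ F) (ht' : t' ∉ F) : V t - V t' ∈ Rel m K N := by
  obtain ⟨M, hM, hFM, h1, h2, h3, h4⟩ := exists_hyper' hF ht ht'
  obtain ⟨g, hg⟩ := exists_move M (z := t) (z' := t') (fun h => h1 (hM _ h)) (fun h => h2 (hM _ h))
    h3 h4
  have hgM : ∀ a ∈ M, (g.restrictScalars ℂ) a = a := fun a ha => g.commutes ⟨a, ha⟩
  have h5 := homotopy (K := K) (N' := N) (m := m) M (t := t) (fun h => h1 (hM _ h)) ⟨h3⟩ (V t)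
    (fun σ hσ hσt => by
      rw [hV σ (fun a ha => hσ a (hFM ha)), hσt])
    (AlgHom.id ℂ N) (g.restrictScalars ℂ).toAlgHom (fun a ha => (hgM a ha).symm)
  have h6 : Finsupp.mapDomain (fun φ : K →ₐ[ℂ] N => (AlgHom.id ℂ N).comp φ) (V t) = V t := by
    have h7 : (fun φ : K →ₐ[ℂ] N => (AlgHom.id ℂ N).comp φ) = id := by
      funext φ
      exact AlgHom.id_comp φ
    rw [h7, Finsupp.mapDomain_id]
  rw [h6, hV (g.restrictScalars ℂ) (fun a ha => hgM a (hFM ha))] at h5
  have h8 : (g.restrictScalars ℂ) t = t' := hg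
  rwa [h8] at h5

/-- The family `v` is independent over the closed field `F`. -/
def Free (F : IntermediateField ℂ N) {n : ℕ} (v : Fin n → N) : Prop :=
  ∀ i, v i ∉ clo F (v '' {i}ᶜ)

theorem clo_mono {F F' : IntermediateField ℂ N} {S T : Set N} (h : F ≤ F') (hST : S ⊆ T) :
    clo F S ≤ clo F' T :=
  clo_le (clo_closed _ _) (h.trans (le_clo _ _)) (hST.trans (subset_clo _ _))

theorem update_image {n : ℕ} (v : Fin n → N) (i : Fin n) (s : N) :
    Function.update v i s '' {i}ᶜ = v '' {i}ᶜ := by
  refine Set.image_congr fun j hj => ?_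
  exact Function.update_of_ne hj _ _

/-- One member may be replaced by any element outside of the closure of the others. -/
theorem Free.update {F : IntermediateField ℂ N} {n : ℕ} {v : Fin n → N} (hv : Free F v)
    {i : Fin n} {s : N} (hs : s ∉ clo F (v '' {i}ᶜ)) : Free F (Function.update v i s) := by
  classical
  intro j
  by_cases hj : j = i
  · subst hj
    rw [update_image, Function.update_self]
    exact hs
  · rw [Function.update_of_ne hj]
    intro h
    -- the closure of the others except for `i` and `j`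
    set G : IntermediateField ℂ N := clo F (v '' {i, j}ᶜ) with hG
    have hGc : ∀ u, IsAlgebraic G u → u ∈ G := clo_closed _ _
    have h1 : clo F (Function.update v i s '' {j}ᶜ) ≤ clo G {s} := by
      refine clo_le (clo_closed _ _) ((le_clo F _).trans (le_clo G _)) ?_
      rintro _ ⟨l, hl, rfl⟩
      by_cases hli : l = i
      · subst hli
        rw [Function.update_self]
        exact mem_clo_single _ _
      · rw [Function.update_of_ne hli]
        refine le_clo G _ (subset_clo _ _ ⟨l, ?_, rfl⟩)
        rintro (h2 | h2)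
        · exact hli h2
        · exact hl h2
    have h2 : v j ∉ G := by
      intro h3
      refine hv j (clo_mono le_rfl ?_ h3)
      refine Set.image_mono ?_
      intro l hl hlj
      exact hl (Or.inr hlj)
    have h3 : s ∈ clo G {v j} := exchange hGc (h1 h) h2
    refine hs (clo_single (clo_closed _ _) ?_ ?_ h3)
    · refine clo_mono le_rfl (Set.image_mono ?_)
      intro l hl hli
      exact hl (Or.inl hli)
    · exact subset_clo _ _ ⟨j, hj, rfl⟩

/-- **Several rational parameters.** -/
theorem multi_const (F : IntermediateField ℂ N) {n : ℕ} (V : (Fin n → N) → ((K →ₐ[ℂ] N) →₀ ℤ))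
    (hV : ∀ g : N ≃ₐ[ℂ] N, (∀ a ∈ F, g a = a) → ∀ v,
      Finsupp.mapDomain (fun φ : K →ₐ[ℂ] N => g.toAlgHom.comp φ) (V v) = V (fun i => g (v i)))
    {v v' : Fin n → N} (hv : Free F v) (hv' : Free F v') : V v - V v' ∈ Rel m K N := by
  classical
  -- one step
  have step : ∀ (u : Fin n → N) (i : Fin n) (s : N), Free F u → s ∉ clo F (u '' {i}ᶜ) →
      V u - V (Function.update u i s) ∈ Rel m K N := by
    intro u i s hu hs
    have h1 := param_const (K := K) (m := m) (clo F (u '' {i}ᶜ)) (clo_closed _ _)
      (fun t => V (Function.update u i t)) (fun g hg t => ?_) (hu i) hs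
    · simpa only [Function.update_eq_self] using h1
    · rw [hV g (fun a ha => hg a (le_clo _ _ ha))]
      congr 1
      funext j
      by_cases hj : j = i
      · subst hj
        rw [Function.update_self, Function.update_self]
      · rw [Function.update_of_ne hj, Function.update_of_ne hj]
        exact hg _ (subset_clo _ _ ⟨j, hj, rfl⟩)
  have key : ∀ (s : Finset (Fin n)), ∃ u u' : Fin n → N, Free F u ∧ Free F u' ∧
      (∀ i ∈ s, u i = u' i) ∧ V v - V u ∈ Rel m K N ∧ V v' - V u' ∈ Rel m K N := by
    intro s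
    induction s using Finset.induction_on with
    | empty =>
      refine ⟨v, v', hv, hv', by simp, ?_, ?_⟩
      · rw [sub_self]
        exact AddSubgroup.zero_mem _
      · rw [sub_self]
        exact AddSubgroup.zero_mem _
    | insert i s his ih =>
      obtain ⟨u, u', hu, hu', hs, h1, h2⟩ := ih
      obtain ⟨t, ht, ht'⟩ := exists_out (hu i) (hu' i)
      refine ⟨Function.update u i t, Function.update u' i t, hu.update ht, hu'.update ht', ?_,
        ?_, ?_⟩
      · intro j hj
        by_cases hji : j = i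
        · subst hji
          rw [Function.update_self, Function.update_self]
        · rw [Function.update_of_ne hji, Function.update_of_ne hji]
          exact hs j ((Finset.mem_insert.1 hj).resolve_left hji)
      · have h3 := AddSubgroup.add_mem _ h1 (step u i t hu ht)
        rwa [sub_add_sub_cancel] at h3
      · have h3 := AddSubgroup.add_mem _ h2 (step u' i t hu' ht')
        rwa [sub_add_sub_cancel] at h3
  obtain ⟨u, u', -, -, hs, h1, h2⟩ := key Finset.univ
  have h3 : u = u' := funext fun i => hs i (Finset.mem_univ i)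
  subst h3
  have h4 := AddSubgroup.sub_mem _ h1 h2
  rwa [sub_sub_sub_cancel_right] at h4

end move

end Vale.Agent.P297.H521
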