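import Vale.Agent.P297.H729.Stable
import Vale.Agent.P297.H212.Good0

/-!
Two complex points of a family which lie on an open subset of a line, and families over the affine
line over a finitely generated algebra.
-/

set_option linter.unusedSectionVars false
set_option linter.style.haveILetI false

open CategoryTheory AlgebraicGeometry IntermediateField Polynomial

namespace Vale.Agent.P297.H521

open Vale.Agent.P297 Vale.Agent.P297.H839 Vale.Agent.P297.H516 Vale.Agent.P297.H729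

/-- Two `ℂ`-points of `P` which lie on an open subset of a line. -/
def Joined {P : Type} [CommRing P] [Algebra ℂ P] (e₀ e₁ : P →ₐ[ℂ] ℂ) : Prop :=
  ∃ (R : Type) (_ : CommRing R) (_ : IsDomain R)
    (_ : IsIntegrallyClosed R) (_ : Algebra ℂ R) (t : R) (g : P →ₐ[ℂ] R)
    (ε₀ ε₁ : R →ₐ[ℂ] ℂ), Transcendental ℂ t ∧
    (∀ r : R, ∃ p q : ℂ[X], aeval t q ≠ 0 ∧ r * aeval t q = aeval t p) ∧
    ε₀.comp g = e₀ ∧ ε₁.comp g = e₁

section

variable {S : Scheme.{0}} (f : S ⟶ Spec (.of ℂ)) {C : Type} [CommRing C]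
  [Algebra ℂ C] (j : Spec (.of C) ⟶ S)
  (hj : j ≫ f = Spec.map (CommRingCat.ofHom (algebraMap ℂ C)))

theorem transfer_joined [IsProper f] {P : Type} [CommRing P] [Algebra ℂ P]
    (F : P[X]) (hF : F.Monic) (e₀ e₁ : P →ₐ[ℂ] ℂ) (hP : Joined e₀ e₁)
    (hs₀ : (F.map e₀.toRingHom).Separable) (hs₁ : (F.map e₁.toRingHom).Separable)
    (θ : C →ₐ[ℂ] AdjoinRoot F) :
    fibCyc f j hj e₀ θ - fibCyc f j hj e₁ θ ∈ Rat f := by
  obtain ⟨R, _, _, _, _, t, g, ε₀, ε₁, ht, hgen, h0, h1⟩ := hP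
  rw [← fibCyc_baseChange f j hj g e₀ ε₀ h0 F θ, ← fibCyc_baseChange f j hj g e₁ ε₁ h1 F θ]
  apply transfer f j hj ht hgen ε₀ ε₁ _ (F.map g.toRingHom) rfl (hF.map _)
  · rw [Polynomial.map_map]
    subst h0
    exact hs₀
  · rw [Polynomial.map_map]
    subst h1
    exact hs₁

end

/-- Two points of an open subset of the affine line over `A` with the same image in `A`. -/
theorem joined_away {A : Type} [CommRing A] [Algebra ℂ A] (h : A[X])
    (e₀ e₁ : Localization.Away h →ₐ[ℂ] ℂ)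
    (he : ∀ a : A, e₀ (algebraMap A[X] (Localization.Away h) (Polynomial.C a)) =
      e₁ (algebraMap A[X] (Localization.Away h) (Polynomial.C a))) : Joined e₀ e₁ := by
  let σ : A →ₐ[ℂ] ℂ := e₀.comp ((IsScalarTower.toAlgHom ℂ A[X] (Localization.Away h)).comp
    (Algebra.ofId A A[X] |>.restrictScalars ℂ))
  have hσ : ∀ a, σ a = e₀ (algebraMap A[X] (Localization.Away h) (Polynomial.C a)) := fun a => rfl
  let c₀ : ℂ := e₀ (algebraMap A[X] (Localization.Away h) X)
  let c₁ : ℂ := e₁ (algebraMap A[X] (Localization.Away h) X)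
  let ℓ : A[X] →ₐ[ℂ] ℂ[X] := Polynomial.mapAlgHom σ
  have hℓC : ∀ a, ℓ (Polynomial.C a) = Polynomial.C (σ a) := fun a => Polynomial.map_C _
  have hℓX : ℓ X = X := Polynomial.map_X _
  have key : ∀ (e : Localization.Away h →ₐ[ℂ] ℂ)
      (_ : ∀ a : A, e (algebraMap A[X] (Localization.Away h) (Polynomial.C a)) = σ a) (x : A[X]),
      aeval (e (algebraMap A[X] (Localization.Away h) X)) (ℓ x) =
        e (algebraMap A[X] (Localization.Away h) x) := by
    intro e he x
    induction x using Polynomial.induction_on' with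
    | add p q hp hq => rw [map_add, map_add, map_add, map_add, hp, hq]
    | monomial m r =>
      rw [← Polynomial.C_mul_X_pow_eq_monomial, map_mul, map_mul, map_mul, map_mul, map_pow,
        map_pow, map_pow, map_pow, hℓC, hℓX, aeval_C, aeval_X, he]
      rfl
  have h0' : ∀ x, aeval c₀ (ℓ x) = e₀ (algebraMap _ _ x) := key e₀ (fun a => rfl)
  have h1' : ∀ x, aeval c₁ (ℓ x) = e₁ (algebraMap _ _ x) := key e₁ (fun a => (he a).symm)
  have hu : ∀ (e : Localization.Away h →ₐ[ℂ] ℂ),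
      e (algebraMap A[X] (Localization.Away h) h) ≠ 0 := by
    intro e
    have : IsUnit (e (algebraMap A[X] (Localization.Away h) h)) :=
      (IsLocalization.Away.algebraMap_isUnit h).map e
    exact this.ne_zero
  have hℓ0 : aeval c₀ (ℓ h) ≠ 0 := by rw [h0']; exact hu e₀
  have hℓ1 : aeval c₁ (ℓ h) ≠ 0 := by rw [h1']; exact hu e₁
  have hne : ℓ h ≠ 0 := by
    intro h0
    rw [h0, map_zero] at hℓ0
    exact hℓ0 rfl
  have hle : Submonoid.powers (ℓ h) ≤ nonZeroDivisors ℂ[X] :=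
    powers_le_nonZeroDivisors_of_noZeroDivisors hne
  haveI : IsDomain (Localization.Away (ℓ h)) := IsLocalization.isDomain_localization hle
  haveI : IsIntegrallyClosed (Localization.Away (ℓ h)) :=
    isIntegrallyClosed_of_isLocalization _ _ hle
  have hinj : Function.Injective (algebraMap ℂ[X] (Localization.Away (ℓ h))) :=
    IsLocalization.injective _ hle
  have haev : ∀ p : ℂ[X], aeval (algebraMap ℂ[X] (Localization.Away (ℓ h)) X) p =
      algebraMap ℂ[X] (Localization.Away (ℓ h)) p := by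
    intro p
    rw [aeval_algebraMap_apply, aeval_X_left_apply]
  let g : Localization.Away h →ₐ[ℂ] Localization.Away (ℓ h) :=
    awayLift ((IsScalarTower.toAlgHom ℂ ℂ[X] (Localization.Away (ℓ h))).comp ℓ) h
      (IsLocalization.Away.algebraMap_isUnit (ℓ h))
  have hg : ∀ x, g (algebraMap _ _ x) = algebraMap _ _ (ℓ x) := fun x =>
    awayLift_algebraMap _ h _ x
  let ε₀ : Localization.Away (ℓ h) →ₐ[ℂ] ℂ := awayLift (aeval c₀) (ℓ h) hℓ0.isUnit
  let ε₁ : Localization.Away (ℓ h) →ₐ[ℂ] ℂ := awayLift (aeval c₁) (ℓ h) hℓ1.isUnit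
  refine ⟨Localization.Away (ℓ h), inferInstance, inferInstance, inferInstance, inferInstance,
    algebraMap ℂ[X] _ X, g, ε₀, ε₁, ?_, ?_, ?_, ?_⟩
  · rw [transcendental_iff]
    intro p hp
    rw [haev] at hp
    exact hinj (by rw [hp, map_zero])
  · intro r
    obtain ⟨⟨x, ⟨_, n, rfl⟩⟩, hr⟩ := IsLocalization.surj (Submonoid.powers (ℓ h)) r
    refine ⟨x, (ℓ h) ^ n, ?_, ?_⟩
    · rw [haev]
      intro h0
      exact pow_ne_zero n hne (hinj (by rw [h0, map_zero]))
    · rw [haev, haev]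
      exact hr
  · apply away_ext
    intro x
    change ε₀ (g _) = _
    rw [hg]
    exact (awayLift_algebraMap _ _ _ _).trans (h0' x)
  · apply away_ext
    intro x
    change ε₁ (g _) = _
    rw [hg]
    exact (awayLift_algebraMap _ _ _ _).trans (h1' x)

section Roots

variable {S : Scheme.{0}} {f : S ⟶ Spec (.of ℂ)} [IsProper f] {C : Type} [CommRing C] [Algebra ℂ C]
  {j : Spec (.of C) ⟶ S}
  {hj : j ≫ f = Spec.map (CommRingCat.ofHom (algebraMap ℂ C))}
  {N : Type} [Field N] [Algebra ℂ N]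

/-- The cycle of the fibre and the sum over the roots. -/
theorem fib_pair {P : Type} [CommRing P] [Algebra ℂ P] [Algebra.FiniteType ℂ P]
    (g : P →ₐ[ℂ] N) (F : P[X]) (hF : F.Monic) {n : ℕ} (a : Fin n → N)
    (ha : Function.Injective a)
    (hprod : F.map g.toRingHom = ∏ i, (X - Polynomial.C (a i)))
    (θ : C →ₐ[ℂ] AdjoinRoot F) (ev : Fin n → (AdjoinRoot F →ₐ[ℂ] N))
    (hev : ∀ i r, ev i (AdjoinRoot.of F r) = g r) (hroot : ∀ i, ev i (AdjoinRoot.root F) = a i) :
    ∃ A₀ : Subalgebra ℂ N, A₀.FG ∧ g.range ≤ A₀ ∧ ∀ B : Subalgebra ℂ N, A₀ ≤ B →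
      ∀ (hgB : ∀ r, g r ∈ B) (ξ : B →ₐ[ℂ] ℂ),
      (F.map (ξ.comp (g.codRestrict B hgB)).toRingHom).Separable ∧
      fibCyc f j hj (ξ.comp (g.codRestrict B hgB)) θ =
        pair f j hj B ξ (∑ i, Finsupp.single ((ev i).comp θ) (1 : ℤ)) := by
  classical
  let A₁ : Subalgebra ℂ N := Algebra.adjoin ℂ (Set.range a)
  let A₂ : Subalgebra ℂ N := Algebra.adjoin ℂ (Set.range fun q : Fin n × Fin n => (a q.1 - a q.2)⁻¹)
  have hA1 : A₁.FG := ⟨(Set.finite_range a).toFinset, by simp [A₁]⟩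
  have hA2 : A₂.FG :=
    ⟨(Set.finite_range fun q : Fin n × Fin n => (a q.1 - a q.2)⁻¹).toFinset, by simp [A₂]⟩
  have hg : g.range.FG := by
    rw [← Algebra.map_top]
    exact (Algebra.FiniteType.out).map g
  refine ⟨g.range ⊔ A₁ ⊔ A₂, (hg.sup hA1).sup hA2, le_sup_left.trans le_sup_left,
    fun B hB hgB => ?_⟩
  have haB : ∀ i, a i ∈ B := fun i =>
    hB ((le_sup_right.trans le_sup_left : A₁ ≤ g.range ⊔ A₁ ⊔ A₂)
      (Algebra.subset_adjoin ⟨i, rfl⟩))
  have hiB : ∀ i k, (a i - a k)⁻¹ ∈ B := fun i k =>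
    hB ((le_sup_right : A₂ ≤ g.range ⊔ A₁ ⊔ A₂) (Algebra.subset_adjoin ⟨(i, k), rfl⟩))
  let gB : P →ₐ[ℂ] B := g.codRestrict B hgB
  have hevmk : ∀ i (G : P[X]), ev i (AdjoinRoot.mk F G) = G.eval₂ g.toRingHom (a i) := by
    intro i G
    induction G using Polynomial.induction_on' with
    | add p q hp hq => rw [map_add, map_add, hp, hq, eval₂_add]
    | monomial m r =>
      rw [← Polynomial.C_mul_X_pow_eq_monomial, map_mul, map_mul, map_pow, map_pow,
        AdjoinRoot.mk_C, AdjoinRoot.mk_X, hev, hroot, eval₂_mul, eval₂_C, eval₂_X_pow]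
      rfl
  have hevB : ∀ i x, ev i x ∈ B := by
    intro i x
    obtain ⟨G, rfl⟩ := AdjoinRoot.mk_surjective x
    rw [hevmk, eval₂_eq_sum_range]
    exact sum_mem fun m _ => mul_mem (hgB _) (pow_mem (haB i) m)
  let evB : Fin n → (AdjoinRoot F →ₐ[ℂ] B) := fun i => (ev i).codRestrict B (hevB i)
  have hprodB : F.map gB.toRingHom = ∏ i, (X - Polynomial.C (⟨a i, haB i⟩ : B)) := by
    apply Polynomial.map_injective B.val.toRingHom Subtype.val_injective
    rw [Polynomial.map_map, Polynomial.map_prod]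
    simp only [Polynomial.map_sub, Polynomial.map_X, Polynomial.map_C]
    exact hprod
  intro ξ
  have hprodξ : F.map (ξ.comp gB).toRingHom = ∏ i, (X - Polynomial.C (ξ ⟨a i, haB i⟩)) := by
    have h1 := congrArg (Polynomial.map ξ.toRingHom) hprodB
    rw [Polynomial.map_map, Polynomial.map_prod] at h1
    simp only [Polynomial.map_sub, Polynomial.map_X, Polynomial.map_C] at h1
    exact h1
  have hinjξ : Function.Injective (fun i => ξ ⟨a i, haB i⟩) := by
    intro r r' hrr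
    by_contra hne
    have hne' : a r - a r' ≠ 0 := sub_ne_zero.2 fun h => hne (ha h)
    have h1 : ((⟨a r, haB r⟩ : B) - ⟨a r', haB r'⟩) * ⟨(a r - a r')⁻¹, hiB r r'⟩ = 1 :=
      Subtype.ext (mul_inv_cancel₀ hne')
    have h2 := congrArg ξ h1
    rw [map_mul, map_sub, map_one] at h2
    have h3 : ξ ⟨a r, haB r⟩ = ξ ⟨a r', haB r'⟩ := hrr
    rw [h3, sub_self, zero_mul] at h2
    exact zero_ne_one h2
  have hsep : (F.map (ξ.comp gB).toRingHom).Separable := by
    rw [hprodξ, Polynomial.separable_prod_X_sub_C_iff]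
    exact hinjξ
  refine ⟨hsep, ?_⟩
  let χ : Fin n → Fib (ξ.comp gB) (AdjoinRoot F) := fun i =>
    ⟨ξ.comp (evB i), fun x => by
      change ξ (evB i (AdjoinRoot.of F x)) = ξ (gB x)
      congr 1
      apply Subtype.ext
      exact hev i x⟩
  have hχroot : ∀ i, (χ i).1 (AdjoinRoot.root F) = ξ ⟨a i, haB i⟩ := by
    intro i
    change ξ (evB i (AdjoinRoot.root F)) = _
    congr 1
    apply Subtype.ext
    exact hroot i
  haveI := fib_finite (ξ.comp gB) F hF
  letI := Fintype.ofFinite (Fib (ξ.comp gB) (AdjoinRoot F))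
  have hcard : Fintype.card (Fin n) = Fintype.card (Fib (ξ.comp gB) (AdjoinRoot F)) := by
    rw [← Nat.card_eq_fintype_card (α := Fib (ξ.comp gB) (AdjoinRoot F)),
      fib_card _ F hF hsep]
    have h1 := congrArg Polynomial.natDegree hprod
    rw [hF.natDegree_map, Polynomial.natDegree_prod_of_monic _ _
      (fun r _ => Polynomial.monic_X_sub_C _)] at h1
    simpa using h1.symm
  have hχbij : Function.Bijective χ := by
    rw [Fintype.bijective_iff_injective_and_card]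
    refine ⟨?_, hcard⟩
    intro r r' h
    apply hinjξ
    change ξ ⟨a r, haB r⟩ = ξ ⟨a r', haB r'⟩
    rw [← hχroot, ← hχroot, h]
  let E := Equiv.ofBijective χ hχbij
  have hE : ∀ i, (E i).1.comp θ = ξ.comp (((ev i).comp θ).codRestrict B
      (fun c => hevB i (θ c))) := by
    intro i
    apply AlgHom.ext
    intro c
    rfl
  clear_value E
  change fibCyc f j hj (ξ.comp gB) θ = _
  unfold fibCyc
  rw [← finsum_comp_equiv E, finsum_eq_sum_of_fintype, map_sum]
  refine Finset.sum_congr rfl fun i _ => ?_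
  rw [pair_single, one_smul, cyc_of_mem f j hj B ξ ((ev i).comp θ) (fun c => hevB i (θ c)), hE]

/-- The sums over the roots at two points of the base which are joined by lines. -/
theorem joined_roots {P : Type} [CommRing P] [Algebra ℂ P] [Algebra.FiniteType ℂ P]
    (g g' : P →ₐ[ℂ] N) (F : P[X]) (hF : F.Monic) {n n' : ℕ} (a : Fin n → N) (a' : Fin n' → N)
    (ha : Function.Injective a) (ha' : Function.Injective a')
    (hprod : F.map g.toRingHom = ∏ i, (X - Polynomial.C (a i)))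
    (hprod' : F.map g'.toRingHom = ∏ i, (X - Polynomial.C (a' i)))
    (θ : C →ₐ[ℂ] AdjoinRoot F) (ev : Fin n → (AdjoinRoot F →ₐ[ℂ] N))
    (ev' : Fin n' → (AdjoinRoot F →ₐ[ℂ] N))
    (hev : ∀ i r, ev i (AdjoinRoot.of F r) = g r) (hroot : ∀ i, ev i (AdjoinRoot.root F) = a i)
    (hev' : ∀ i r, ev' i (AdjoinRoot.of F r) = g' r)
    (hroot' : ∀ i, ev' i (AdjoinRoot.root F) = a' i)
    (hjoin : ∀ (B : Subalgebra ℂ N) (hgB : ∀ r, g r ∈ B) (hgB' : ∀ r, g' r ∈ B) (ξ : B →ₐ[ℂ] ℂ),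
      Joined (ξ.comp (g.codRestrict B hgB)) (ξ.comp (g'.codRestrict B hgB'))) :
    HasVal f j hj (Rat f) N (∑ i, Finsupp.single ((ev i).comp θ) (1 : ℤ) -
      ∑ i, Finsupp.single ((ev' i).comp θ) (1 : ℤ)) 0 := by
  obtain ⟨A, hA, hgA, h⟩ := fib_pair (f := f) (j := j) (hj := hj) g F hF a ha hprod θ ev hev hroot
  obtain ⟨A', hA', hgA', h'⟩ := fib_pair (f := f) (j := j) (hj := hj) g' F hF a' ha' hprod' θ ev'
    hev' hroot'
  refine ⟨A ⊔ A', hA.sup hA', fun B hB ξ => ?_⟩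
  have hgB : ∀ r, g r ∈ B := fun r => hB ((le_sup_left : A ≤ A ⊔ A') (hgA ⟨r, rfl⟩))
  have hgB' : ∀ r, g' r ∈ B := fun r => hB ((le_sup_right : A' ≤ A ⊔ A') (hgA' ⟨r, rfl⟩))
  obtain ⟨hs, h1⟩ := h B (le_sup_left.trans hB) hgB ξ
  obtain ⟨hs', h1'⟩ := h' B (le_sup_right.trans hB) hgB' ξ
  rw [map_sub, ← h1, ← h1', QuotientAddGroup.mk'_apply, QuotientAddGroup.eq_zero_iff]
  exact transfer_joined f j hj F hF _ _ (hjoin B hgB hgB' ξ) hs hs' θ

end Roots

end Vale.Agent.P297.H521
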