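import Vale.Agent.P297.H521.Rul

/-!
The two rulings of a nonsingular quadric surface: change of coordinates.
-/

set_option linter.unusedSectionVars false
set_option linter.unusedSimpArgs false

open Matrix

namespace Vale.Agent.P297.C8

section ring

variable {R : Type} [CommRing R]

theorem det_four (P : Matrix (Fin 4) (Fin 4) R) : P.det =
    (P 0 0 * P 1 1 - P 1 0 * P 0 1) * (P 2 2 * P 3 3 - P 3 2 * P 2 3) -
    (P 0 0 * P 2 1 - P 2 0 * P 0 1) * (P 1 2 * P 3 3 - P 3 2 * P 1 3) +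
    (P 0 0 * P 3 1 - P 3 0 * P 0 1) * (P 1 2 * P 2 3 - P 2 2 * P 1 3) +
    (P 1 0 * P 2 1 - P 2 0 * P 1 1) * (P 0 2 * P 3 3 - P 3 2 * P 0 3) -
    (P 1 0 * P 3 1 - P 3 0 * P 1 1) * (P 0 2 * P 2 3 - P 2 2 * P 0 3) +
    (P 2 0 * P 3 1 - P 3 0 * P 2 1) * (P 0 2 * P 1 3 - P 1 2 * P 0 3) := by
  rw [det_succ_row_zero, Fin.sum_univ_four]
  simp only [det_fin_three, submatrix_apply]
  simp [Fin.succAbove, Fin.castSucc, Fin.lt_def]
  ring

/-- One row of the second exterior power of a matrix. -/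
def c2r (a b : Fin 4 → R) (ω : Fin 6 → R) : R :=
  (a 0 * b 1 - a 1 * b 0) * ω 0 + (a 0 * b 2 - a 2 * b 0) * ω 1 + (a 0 * b 3 - a 3 * b 0) * ω 2 +
    (a 1 * b 2 - a 2 * b 1) * ω 3 + (a 1 * b 3 - a 3 * b 1) * ω 4 + (a 2 * b 3 - a 3 * b 2) * ω 5

/-- The second exterior power of a matrix. -/
def c2 (P : Matrix (Fin 4) (Fin 4) R) (ω : Fin 6 → R) : Fin 6 → R :=
  ![c2r (P 0) (P 1) ω, c2r (P 0) (P 2) ω, c2r (P 0) (P 3) ω, c2r (P 1) (P 2) ω, c2r (P 1) (P 3) ω,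
    c2r (P 2) (P 3) ω]

/-- The star operator. -/
def st6 (ω : Fin 6 → R) : Fin 6 → R := ![ω 5, - ω 4, ω 3, ω 2, - ω 1, ω 0]

theorem ws_eq (z u : Fin 4 → R) : ws z u = st6 (wd z u) := by
  funext i
  fin_cases i <;> simp [ws, wd, st6]

theorem st6_st6 (ω : Fin 6 → R) : st6 (st6 ω) = ω := by
  funext i
  fin_cases i <;> simp [st6]

theorem st6_smul (c : R) (ω : Fin 6 → R) : st6 (c • ω) = c • st6 ω := by
  funext i
  fin_cases i <;> simp [st6]

theorem c2r_smul (a b : Fin 4 → R) (c : R) (ω : Fin 6 → R) :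
    c2r a b (c • ω) = c * c2r a b ω := by
  simp only [c2r, Pi.smul_apply, smul_eq_mul]
  ring

theorem c2_smul (P : Matrix (Fin 4) (Fin 4) R) (c : R) (ω : Fin 6 → R) :
    c2 P (c • ω) = c • c2 P ω := by
  funext i
  fin_cases i <;> simp [c2, c2r_smul]

theorem c2r_wd (a b z u : Fin 4 → R) :
    (a ⬝ᵥ z) * (b ⬝ᵥ u) - (b ⬝ᵥ z) * (a ⬝ᵥ u) = c2r a b (wd z u) := by
  simp only [dotProduct, Fin.sum_univ_four, c2r, wd]
  simp only [Matrix.cons_val]
  ring

theorem wd_mulVec (P : Matrix (Fin 4) (Fin 4) R) (z u : Fin 4 → R) :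
    wd (P.mulVec z) (P.mulVec u) = c2 P (wd z u) := by
  have h : ∀ i, (P.mulVec z) i = P i ⬝ᵥ z := fun _ => rfl
  have h' : ∀ i, (P.mulVec u) i = P i ⬝ᵥ u := fun _ => rfl
  unfold c2
  rw [wd]
  simp only [h, h', c2r_wd]

/-- The Laplace expansion. -/
theorem c2_transpose (P : Matrix (Fin 4) (Fin 4) R) (ω : Fin 6 → R) :
    c2 Pᵀ (st6 (c2 P ω)) = P.det • st6 ω := by
  rw [det_four]
  funext i
  fin_cases i
  · simp only [c2, st6, c2r, transpose_apply, Pi.smul_apply, smul_eq_mul, Fin.zero_eta,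
      Fin.mk_one, Fin.reduceFinMk, Matrix.cons_val]
    ring
  · simp only [c2, st6, c2r, transpose_apply, Pi.smul_apply, smul_eq_mul, Fin.zero_eta,
      Fin.mk_one, Fin.reduceFinMk, Matrix.cons_val]
    ring
  · simp only [c2, st6, c2r, transpose_apply, Pi.smul_apply, smul_eq_mul, Fin.zero_eta,
      Fin.mk_one, Fin.reduceFinMk, Matrix.cons_val]
    ring
  · simp only [c2, st6, c2r, transpose_apply, Pi.smul_apply, smul_eq_mul, Fin.zero_eta,
      Fin.mk_one, Fin.reduceFinMk, Matrix.cons_val]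
    ring
  · simp only [c2, st6, c2r, transpose_apply, Pi.smul_apply, smul_eq_mul, Fin.zero_eta,
      Fin.mk_one, Fin.reduceFinMk, Matrix.cons_val]
    ring
  · simp only [c2, st6, c2r, transpose_apply, Pi.smul_apply, smul_eq_mul, Fin.zero_eta,
      Fin.mk_one, Fin.reduceFinMk, Matrix.cons_val]
    ring

/-- Change of coordinates. -/
theorem Rul.congr {P M : Matrix (Fin 4) (Fin 4) R} {w : R} {z u : Fin 4 → R}
    (h : Rul M w (P.mulVec z) (P.mulVec u)) : Rul (Pᵀ * M * P) (w * P.det) z u := by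
  unfold Rul at h ⊢
  have e : ∀ v, (Pᵀ * M * P).mulVec v = Pᵀ.mulVec (M.mulVec (P.mulVec v)) := by
    intro v
    rw [mulVec_mulVec, mulVec_mulVec, Matrix.mul_assoc]
  rw [e, e, wd_mulVec, h, c2_smul, ws_eq, ws_eq, wd_mulVec, c2_transpose, smul_smul]

end ring

end Vale.Agent.P297.C8
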