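import Vale.Agent.P297.H521.RulV

/-!
Cycles cut out by the lines of a ruling of a quadric do not depend on the line.
-/

set_option linter.unusedSectionVars false
set_option linter.style.haveILetI false

open IntermediateField Polynomial Matrix

namespace Vale.Agent.P297.C8

open Vale.Agent.P297 Vale.Agent.P297.Gen Vale.Agent.P297.H839 Vale.Agent.P297.H516
open Vale.Agent.P297.H729 Vale.Agent.P297.H72 Vale.Agent.P297.H521

section field

variable {k : Type} [Field k]

/-- Both matrices of a change of coordinates. -/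
theorem rul_congr_iff {P M' M : Matrix (Fin 4) (Fin 4) k} {w w' : k} (hM : Pᵀ * M' * P = M)
    (hw : w' * P.det = w) (hP : P.det ≠ 0) {z u : Fin 4 → k} :
    Rul M w z u ↔ Rul M' w' (P.mulVec z) (P.mulVec u) := by
  constructor
  · intro h
    have hu : IsUnit P.det := isUnit_iff_ne_zero.2 hP
    have e : ∀ v : Fin 4 → k, P⁻¹.mulVec (P.mulVec v) = v := by
      intro v
      rw [mulVec_mulVec, nonsing_inv_mul P hu, one_mulVec]
    have h1 : Rul M w (P⁻¹.mulVec (P.mulVec z)) (P⁻¹.mulVec (P.mulVec u)) := by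
      rw [e, e]
      exact h
    have h2 := h1.congr
    have h3 : (P⁻¹)ᵀ * M * P⁻¹ = M' := by
      rw [← hM, Matrix.mul_assoc, Matrix.mul_assoc, Matrix.mul_assoc, mul_nonsing_inv P hu,
        Matrix.mul_one, ← Matrix.mul_assoc, ← transpose_mul, mul_nonsing_inv P hu,
        transpose_one, Matrix.one_mul]
    have h4 : w * (P⁻¹).det = w' := by
      rw [det_nonsing_inv, Ring.inverse_eq_inv', ← hw]
      field_simp
    rwa [h3, h4] at h2
  · intro h
    have h1 := h.congr
    rwa [hM, hw] at h1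

end field

section gen

variable {N : Type} [Field N] [Algebra ℂ N]

/-- A point of the quadric of `M` that is generic over `x`, `y`. -/
structure GenZ (x y : N) (M : Matrix (Fin 4) (Fin 4) N) (z : Fin 4 → N) : Prop where
  one : z 0 = 1
  iso : z ⬝ᵥ M.mulVec z = 0
  ind : AlgebraicIndependent ℂ ![x, y, z 1, z 2]

variable {x y : N} {M : Matrix (Fin 4) (Fin 4) N} {z : Fin 4 → N}

theorem GenZ.xy (h : GenZ x y M z) : AlgebraicIndependent ℂ ![x, y] := by
  have h1 := h.ind.comp (![0, 1] : Fin 2 → Fin 4) (by decide)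
  have h2 : (![x, y, z 1, z 2] ∘ (![0, 1] : Fin 2 → Fin 4)) = ![x, y] := by
    funext i
    fin_cases i <;> rfl
  rwa [h2] at h1

variable [IsAlgClosed N]

theorem GenZ.z1 (h : GenZ x y M z) : z 1 ∉ cl0 {x, y} := by
  have h1 := indep_notMem h.ind (s := {0, 1}) (i := 2) (by decide)
  have h2 : (![x, y, z 1, z 2] '' {0, 1} : Set N) = {x, y} := by
    rw [Set.image_pair]
    rfl
  rw [h2] at h1
  exact h1

theorem GenZ.z2 (h : GenZ x y M z) : z 2 ∉ cl0 {x, y, z 1} := by
  have h1 := indep_notMem h.ind (s := {0, 1, 2}) (i := 3) (by decide)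
  have h2 : (![x, y, z 1, z 2] '' {0, 1, 2} : Set N) = {x, y, z 1} := by
    rw [Set.image_insert_eq, Set.image_pair]
    rfl
  rw [h2] at h1
  exact h1

theorem cl0_mono' {S T : Set N} (h : S ⊆ T) : cl0 S ≤ cl0 T :=
  cl0_le (cl0_closed _) (h.trans (subset_cl0 T))

/-- no linear relation between `1`, `z 1`, `z 2` over `cl0 {x, y}` -/
theorem GenZ.lin_eq_zero (h : GenZ x y M z) {c : Fin 4 → N} (hc : ∀ i, c i ∈ cl0 {x, y})
    (h3 : c 3 = 0) (h0 : c ⬝ᵥ z = 0) : c = 0 := by
  have hle : cl0 {x, y} ≤ cl0 {x, y, z 1} := by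
    refine cl0_mono' ?_
    intro t ht
    rcases ht with rfl | rfl
    · simp
    · simp
  have e : c 0 + c 1 * z 1 + c 2 * z 2 = 0 := by
    rw [dotProduct, Fin.sum_univ_four, h.one, h3] at h0
    linear_combination h0
  have h2 : c 2 = 0 := by
    by_contra hne
    apply h.z2
    have h5 : z 2 = - (c 0 + c 1 * z 1) / c 2 := by
      field_simp
      linear_combination e
    rw [h5]
    exact div_mem (neg_mem (add_mem (hle (hc 0)) (mul_mem (hle (hc 1))
      (subset_cl0 _ (by simp))))) (hle (hc 2))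
  have h1 : c 1 = 0 := by
    by_contra hne
    apply h.z1
    have h5 : z 1 = - c 0 / c 1 := by
      field_simp
      rw [h2] at e
      linear_combination e
    rw [h5]
    exact div_mem (neg_mem (hc 0)) (hc 1)
  have h0' : c 0 = 0 := by
    rw [h1, h2] at e
    linear_combination e
  funext i
  fin_cases i
  · exact h0'
  · exact h1
  · exact h2
  · exact h3

/-- A generic point is on no line that is defined over `cl0 {x, y}`. -/
theorem GenZ.not_line (h : GenZ x y M z) {f g : Fin 4 → N} (hf : ∀ i, f i ∈ cl0 {x, y})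
    (hg : ∀ i, g i ∈ cl0 {x, y}) {a b : Fin 4 → N}
    (hab : (f ⬝ᵥ a) * (g ⬝ᵥ b) - (g ⬝ᵥ a) * (f ⬝ᵥ b) ≠ 0) (h1 : f ⬝ᵥ z = 0)
    (h2 : g ⬝ᵥ z = 0) : False := by
  have key : ∀ i j, f i * g j = f j * g i := by
    have hc := h.lin_eq_zero (c := g 3 • f - f 3 • g) (fun i => by
      simp only [Pi.sub_apply, Pi.smul_apply, smul_eq_mul]
      exact sub_mem (mul_mem (hg 3) (hf i)) (mul_mem (hf 3) (hg i)))
      (by simp only [Pi.sub_apply, Pi.smul_apply, smul_eq_mul]; ring)
      (by rw [sub_dotProduct, smul_dotProduct, smul_dotProduct, h1, h2]; simp)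
    have hc' : ∀ i, g 3 * f i = f 3 * g i := by
      intro i
      have h5 := congrFun hc i
      simp only [Pi.sub_apply, Pi.smul_apply, smul_eq_mul, Pi.zero_apply] at h5
      linear_combination h5
    by_cases hf3 : f 3 = 0
    · have hf0 := h.lin_eq_zero hf hf3 h1
      intro i j
      rw [hf0]
      simp
    · intro i j
      apply mul_left_cancel₀ hf3
      linear_combination f j * hc' i - f i * hc' j
  apply hab
  rw [c2r_wd]
  unfold c2r
  rw [sub_eq_zero.2 (key 0 1), sub_eq_zero.2 (key 0 2), sub_eq_zero.2 (key 0 3),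
    sub_eq_zero.2 (key 1 2), sub_eq_zero.2 (key 1 3), sub_eq_zero.2 (key 2 3)]
  ring

end gen

section main

variable {N : Type} [Field N] [Algebra ℂ N] [IsAlgClosed N]

/-- The line with parameter `t` in normal coordinates. -/
def nl (P : Matrix (Fin 4) (Fin 4) N) (t : N) : Set (Fin 4 → N) :=
  {u | (P.mulVec u) 2 = t * (P.mulVec u) 0 ∧ (P.mulVec u) 3 = t * (P.mulVec u) 1}

variable {x y : N} {M : Matrix (Fin 4) (Fin 4) N} {z : Fin 4 → N} {w : N}

/-- The parameter of the line by a generic point. -/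
theorem GenZ.exists_param (h : GenZ x y M z) {P : Matrix (Fin 4) (Fin 4) N}
    (hP : ∀ i j, P i j ∈ cl0 {x, y}) (hPM : Pᵀ * JJ N * P = M) (hPw : P.det = w)
    (hw : w ≠ 0) : ∃ t, t ∉ cl0 {x, y} ∧ {u | Rul M w z u} = nl P t := by
  haveI : CharZero N := charZero_of_injective_algebraMap (algebraMap ℂ N).injective
  have hdet : P.det ≠ 0 := by rwa [hPw]
  have hu : IsUnit P.det := isUnit_iff_ne_zero.2 hdet
  set ζ : Fin 4 → N := P.mulVec z with hζ
  have hiso : ζ 0 * ζ 3 = ζ 1 * ζ 2 := by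
    have h1 := h.iso
    rw [← hPM, ← mulVec_mulVec, ← mulVec_mulVec, dotProduct_mulVec, vecMul_transpose,
      JJ_iso] at h1
    rcases mul_eq_zero.1 h1 with h2 | h2
    · exact absurd h2 two_ne_zero
    · linear_combination h2
  have hinv : ∀ i j, P i ⬝ᵥ (fun l => P⁻¹ l j) = (1 : Matrix (Fin 4) (Fin 4) N) i j := by
    intro i j
    rw [← mul_nonsing_inv P hu]
    rfl
  have hrow : ∀ i, P i ⬝ᵥ z = ζ i := fun _ => rfl
  have h0 : ζ 0 ≠ 0 := by
    intro h0
    rw [h0, zero_mul] at hiso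
    rcases mul_eq_zero.1 hiso.symm with h1 | h1
    · refine h.not_line (hP 0) (hP 1) (a := fun l => P⁻¹ l 0) (b := fun l => P⁻¹ l 1) ?_ h0 h1
      rw [hinv, hinv, hinv, hinv]
      simp
    · refine h.not_line (hP 0) (hP 2) (a := fun l => P⁻¹ l 0) (b := fun l => P⁻¹ l 2) ?_ h0 h1
      rw [hinv, hinv, hinv, hinv]
      simp
  refine ⟨ζ 2 / ζ 0, ?_, ?_⟩
  · intro ht
    set t := ζ 2 / ζ 0 with htdef
    have e2 : ζ 2 = t * ζ 0 := by
      rw [htdef]
      field_simp
    have e3 : ζ 3 = t * ζ 1 := by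
      rw [htdef]
      field_simp
      linear_combination hiso
    refine h.not_line (f := P 2 - t • P 0) (g := P 3 - t • P 1) (a := fun l => P⁻¹ l 2)
      (b := fun l => P⁻¹ l 3) ?_ ?_ ?_ ?_ ?_
    · intro i
      exact sub_mem (hP 2 i) (mul_mem ht (hP 0 i))
    · intro i
      exact sub_mem (hP 3 i) (mul_mem ht (hP 1 i))
    · simp only [sub_dotProduct, smul_dotProduct, hinv]
      simp
    · rw [sub_dotProduct, smul_dotProduct, hrow, hrow, smul_eq_mul, e2, sub_self]
    · rw [sub_dotProduct, smul_dotProduct, hrow, hrow, smul_eq_mul, e3, sub_self]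
  · ext u
    simp only [Set.mem_ofPred_eq, nl]
    rw [rul_congr_iff hPM (w' := 1) (by rw [one_mul, hPw]) hdet, rul_J' h0 hiso]

/-- An equivariant family of cycles indexed by sets. -/
theorem nl_image (P : Matrix (Fin 4) (Fin 4) N) {g : N ≃ₐ[ℂ] N} (hg : ∀ i j, g (P i j) = P i j)
    (t : N) : (fun (u : Fin 4 → N) j => g (u j)) '' nl P t = nl P (g t) := by
  have e : ∀ (σ : N ≃ₐ[ℂ] N), (∀ i j, σ (P i j) = P i j) → ∀ (u : Fin 4 → N) (i : Fin 4),
      (P.mulVec (fun j => σ (u j))) i = σ ((P.mulVec u) i) := by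
    intro σ hσ u i
    simp only [mulVec, dotProduct, map_sum, map_mul, hσ]
  have hg' : ∀ i j, g.symm (P i j) = P i j := fun i j => by
    rw [AlgEquiv.symm_apply_eq, hg]
  ext u
  constructor
  · rintro ⟨u, hu, rfl⟩
    simp only [nl, Set.mem_ofPred_eq, e g hg]
    obtain ⟨h1, h2⟩ := hu
    exact ⟨by rw [h1, map_mul], by rw [h2, map_mul]⟩
  · rintro ⟨h1, h2⟩
    refine ⟨fun j => g.symm (u j), ⟨?_, ?_⟩, ?_⟩
    · rw [e g.symm hg', e g.symm hg', h1, map_mul, AlgEquiv.symm_apply_apply]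
    · rw [e g.symm hg', e g.symm hg', h2, map_mul, AlgEquiv.symm_apply_apply]
    · funext j
      exact g.apply_symm_apply _

/-- The normal form over the algebraic closure of `ℂ(x, y)`. -/
theorem exists_normal_cl0 {S : Set N} (hM : M.IsSymm) (hMk : ∀ i j, M i j ∈ cl0 S)
    (hw : w ^ 2 = M.det) (hw0 : w ≠ 0) :
    ∃ P : Matrix (Fin 4) (Fin 4) N, (∀ i j, P i j ∈ cl0 S) ∧ Pᵀ * JJ N * P = M ∧ P.det = w := by
  haveI : IsAlgClosed (cl0 S) := isAlgClosed_cl0 S
  haveI : CharZero (cl0 S) := charZero_of_injective_algebraMap (algebraMap ℂ (cl0 S)).injective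
  let M₀ : Matrix (Fin 4) (Fin 4) (cl0 S) := fun i j => ⟨M i j, hMk i j⟩
  have hM₀ : M₀.map (algebraMap (cl0 S) N) = M := by
    ext i j
    rfl
  have hdet : algebraMap (cl0 S) N M₀.det = M.det := by
    have h1 := (algebraMap (cl0 S) N).map_det M₀
    rw [h1]
    exact congrArg Matrix.det hM₀
  have hwk : w ∈ cl0 S := by
    apply cl0_closed
    refine ⟨X ^ 2 - C M₀.det, (monic_X_pow_sub_C _ two_ne_zero).ne_zero, ?_⟩
    rw [map_sub, map_pow, aeval_X, aeval_C, hdet, hw, sub_self]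
  obtain ⟨P₀, h1, h2⟩ := exists_normal (M := M₀) (w := ⟨w, hwk⟩)
    (Matrix.IsSymm.ext fun i j => Subtype.ext (hM.apply i j)) (by
    apply (algebraMap (cl0 S) N).injective
    rw [hdet, map_pow]
    exact hw) (by
    intro h0
    exact hw0 (congrArg Subtype.val h0))
  refine ⟨P₀.map (algebraMap (cl0 S) N), fun i j => (P₀ i j).2, ?_, ?_⟩
  · rw [← hM₀, ← h1]
    have hJ : JJ N = (JJ (cl0 S)).map (algebraMap (cl0 S) N) := by
      ext i j
      fin_cases i <;> fin_cases j <;> simp [JJ]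
    rw [hJ, Matrix.map_mul, Matrix.map_mul, Matrix.transpose_map]
  · have h3 := (algebraMap (cl0 S) N).map_det P₀
    rw [h2] at h3
    exact h3.symm

variable {K : Type} [Field K] [Algebra ℂ K] {m : ℤ}

/-- **Relation (1).** An equivariant function of the lines of a ruling does not depend on the
line, modulo the relations. -/
theorem ruling_const (h4 : Algebra.trdeg ℂ N = 4) (hM : M.IsSymm)
    (hMk : ∀ i j, M i j ∈ cl0 {x, y}) (hw : w ^ 2 = M.det) (hw0 : w ≠ 0)
    (V : Set (Fin 4 → N) → ((K →ₐ[ℂ] N) →₀ ℤ))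
    (hV : ∀ g : N ≃ₐ[ℂ] N, (∀ a ∈ cl0 ({x, y} : Set N), g a = a) → ∀ L,
      Finsupp.mapDomain (fun φ : K →ₐ[ℂ] N => g.toAlgHom.comp φ) (V L) =
        V ((fun u j => g (u j)) '' L)) {z z' : Fin 4 → N} (hz : GenZ x y M z)
    (hz' : GenZ x y M z') : V {u | Rul M w z u} - V {u | Rul M w z' u} ∈ Rel m K N := by
  obtain ⟨P, hP, hPM, hPw⟩ := exists_normal_cl0 hM hMk hw hw0
  obtain ⟨t, ht, h1⟩ := hz.exists_param hP hPM hPw hw0
  obtain ⟨t', ht', h2⟩ := hz'.exists_param hP hPM hPw hw0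
  rw [h1, h2]
  refine param_const h4 hz.xy (fun t => V (nl P t)) (fun g hg t => ?_) ht ht'
  rw [hV g hg, nl_image P (fun i j => hg _ (hP i j))]

end main

end Vale.Agent.P297.C8
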