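import Vale.Agent.P297.H521.RulC

/-!
The two rulings of a nonsingular quadric surface: the normal form.
-/

set_option linter.unusedSectionVars false
set_option linter.unusedSimpArgs false
set_option linter.style.haveILetI false

open Matrix

namespace Vale.Agent.P297.C8

/-- The matrix of the form `2 (ζ₀ ζ₃ - ζ₁ ζ₂)`. -/
def JJ (R : Type) [CommRing R] : Matrix (Fin 4) (Fin 4) R :=
  !![0, 0, 0, 1; 0, 0, -1, 0; 0, -1, 0, 0; 1, 0, 0, 0]

section

variable {R : Type} [CommRing R]

theorem JJ_det : (JJ R).det = 1 := by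
  rw [det_four]
  simp [JJ]

theorem JJ_symm : (JJ R).IsSymm := by
  ext i j
  fin_cases i <;> fin_cases j <;> simp [JJ]

theorem JJ_mulVec (v : Fin 4 → R) : (JJ R).mulVec v = ![v 3, - v 2, - v 1, v 0] := by
  funext i
  fin_cases i <;> simp [JJ, mulVec, dotProduct, Fin.sum_univ_four]

theorem JJ_iso (v : Fin 4 → R) : v ⬝ᵥ (JJ R).mulVec v = 2 * (v 0 * v 3 - v 1 * v 2) := by
  rw [JJ_mulVec]
  simp only [dotProduct, Fin.sum_univ_four, Matrix.cons_val]
  ring

end

section

variable {k : Type} [Field k] [CharZero k]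

theorem rul_J {z u : Fin 4 → k} : Rul (JJ k) 1 z u ↔
    z 0 * u 2 = z 2 * u 0 ∧ z 1 * u 3 = z 3 * u 1 ∧
      z 0 * u 3 - z 3 * u 0 + z 1 * u 2 - z 2 * u 1 = 0 := by
  have h2 : (2 : k) ≠ 0 := two_ne_zero
  rw [rul_iff]
  simp only [JJ_mulVec, Matrix.cons_val, one_mul]
  constructor
  · rintro ⟨_, h1, h2', h3, h4, _⟩
    refine ⟨?_, ?_, ?_⟩
    · apply mul_left_cancel₀ h2
      linear_combination h4
    · apply mul_left_cancel₀ h2
      linear_combination h1
    · linear_combination - h2'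
  · rintro ⟨h0, h1, h2'⟩
    refine ⟨?_, ?_, ?_, ?_, ?_, ?_⟩
    · ring
    · linear_combination 2 * h1
    · linear_combination - h2'
    · linear_combination - h2'
    · linear_combination 2 * h0
    · ring

/-- The line by a point in normal coordinates. -/
theorem rul_J' {z u : Fin 4 → k} (h0 : z 0 ≠ 0) (hz : z 0 * z 3 = z 1 * z 2) :
    Rul (JJ k) 1 z u ↔ u 2 = (z 2 / z 0) * u 0 ∧ u 3 = (z 2 / z 0) * u 1 := by
  rw [rul_J]
  constructor
  · rintro ⟨h1, h2, h3⟩
    have k1 : u 2 = (z 2 / z 0) * u 0 := by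
      field_simp
      linear_combination h1
    refine ⟨k1, ?_⟩
    field_simp
    have h4 : z 0 * (z 0 * u 3 - z 2 * u 1) = 0 := by
      linear_combination z 0 * h3 + u 0 * hz - z 1 * h1
    rcases mul_eq_zero.1 h4 with h5 | h5
    · exact absurd h5 h0
    · linear_combination h5
  · rintro ⟨h1, h2⟩
    have k1 : z 0 * u 2 = z 2 * u 0 := by
      rw [h1]
      field_simp
    have k2 : z 0 * u 3 = z 2 * u 1 := by
      rw [h2]
      field_simp
    refine ⟨k1, ?_, ?_⟩
    · apply mul_left_cancel₀ h0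
      linear_combination z 1 * k2 - u 1 * hz
    · apply mul_left_cancel₀ h0
      linear_combination z 0 * k2 - u 0 * hz + z 1 * k1

end

section

variable {k : Type} [Field k] [IsAlgClosed k] [CharZero k]

theorem toMatrix_toForm [Invertible (2 : k)] {M : Matrix (Fin 4) (Fin 4) k} (hM : M.IsSymm) :
    QuadraticForm.toMatrix' M.toQuadraticForm' = M ∧
      QuadraticMap.associated M.toQuadraticForm' = Matrix.toLinearMap₂' k M := by
  have h1 : QuadraticMap.associated M.toQuadraticForm' = Matrix.toLinearMap₂' k M := by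
    refine QuadraticMap.associated_left_inverse k ?_
    intro x y
    rw [Matrix.toLinearMap₂'_apply', Matrix.toLinearMap₂'_apply', dotProduct_mulVec,
      dotProduct_comm, ← mulVec_transpose, hM.eq]
  refine ⟨?_, h1⟩
  rw [QuadraticForm.toMatrix', h1]
  exact LinearMap.toMatrix'_toLinearMap₂' M

/-- All nonsingular symmetric matrices are equivalent. -/
theorem exists_equiv {M M' : Matrix (Fin 4) (Fin 4) k} (hM : M.IsSymm) (hM' : M'.IsSymm)
    (h : M.det ≠ 0) (h' : M'.det ≠ 0) : ∃ P : Matrix (Fin 4) (Fin 4) k, Pᵀ * M' * P = M := by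
  haveI : Invertible (2 : k) := invertibleOfNonzero two_ne_zero
  obtain ⟨a1, a2⟩ := toMatrix_toForm hM
  obtain ⟨b1, b2⟩ := toMatrix_toForm hM'
  obtain ⟨e⟩ := QuadraticForm.equivalent_of_isAlgClosed M.toQuadraticForm' M'.toQuadraticForm'
    (by
      rw [a2]
      exact (Matrix.nondegenerate_of_det_ne_zero h).1.toLinearMap₂')
    (by
      rw [b2]
      exact (Matrix.nondegenerate_of_det_ne_zero h').1.toLinearMap₂')
  have h1 : M.toQuadraticForm' = M'.toQuadraticForm'.comp e.toLinearEquiv.toLinearMap := by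
    ext x
    exact (e.map_app x).symm
  refine ⟨LinearMap.toMatrix' e.toLinearEquiv.toLinearMap, ?_⟩
  have h2 := QuadraticForm.toMatrix'_comp M'.toQuadraticForm' e.toLinearEquiv.toLinearMap
  rw [← h1, a1, b1] at h2
  exact h2.symm

/-- The normal form of a nonsingular symmetric matrix whose determinant is the square of `w`. -/
theorem exists_normal {M : Matrix (Fin 4) (Fin 4) k} (hM : M.IsSymm) {w : k}
    (hw : w ^ 2 = M.det) (hw0 : w ≠ 0) :
    ∃ P : Matrix (Fin 4) (Fin 4) k, Pᵀ * JJ k * P = M ∧ P.det = w := by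
  obtain ⟨P, hP⟩ := exists_equiv hM JJ_symm (by rw [← hw]; exact pow_ne_zero 2 hw0)
    (by rw [JJ_det]; exact one_ne_zero)
  have h1 : P.det ^ 2 = w ^ 2 := by
    rw [hw, ← hP, det_mul, det_mul, det_transpose, JJ_det]
    ring
  rcases sq_eq_sq_iff_eq_or_eq_neg.1 h1 with h2 | h2
  · exact ⟨P, hP, h2⟩
  · let S : Matrix (Fin 4) (Fin 4) k := !![1, 0, 0, 0; 0, 0, 1, 0; 0, 1, 0, 0; 0, 0, 0, 1]
    have hS : Sᵀ * JJ k * S = JJ k := by
      ext i j
      fin_cases i <;> fin_cases j <;>
        simp [S, JJ, Matrix.mul_apply, Fin.sum_univ_four]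
    have hSd : S.det = -1 := by
      rw [det_four]
      simp [S]
    refine ⟨S * P, ?_, ?_⟩
    · rw [transpose_mul, Matrix.mul_assoc, Matrix.mul_assoc, ← Matrix.mul_assoc S.transpose,
        ← Matrix.mul_assoc (Sᵀ * JJ k), hS, ← Matrix.mul_assoc, hP]
    · rw [det_mul, hSd, h2]
      ring

end

end Vale.Agent.P297.C8
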