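import Vale.Agent.P297.H521.RulC

/-!
The ruling that contains a line of a quadric surface.
-/

set_option linter.unusedSectionVars false
set_option linter.unusedSimpArgs false

open Matrix

namespace Vale.Agent.P297.C8

section

variable {k : Type} [Field k] {M : Matrix (Fin 4) (Fin 4) k}

/-- Every line of the quadric belongs to a ruling. -/
theorem exists_ruling (hM : M.IsSymm) {z r : Fin 4 → k} (z0 : z 0 = 1) (r0 : r 0 = 0)
    (hr : r ≠ 0) (zz : z ⬝ᵥ M.mulVec z = 0) (zr : z ⬝ᵥ M.mulVec r = 0)
    (rr : r ⬝ᵥ M.mulVec r = 0) : ∃ w : k, w ^ 2 = M.det ∧ Rul M w z r := by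
  have rz : r ⬝ᵥ M.mulVec z = 0 := by
    rw [dotProduct_mulVec, ← mulVec_transpose, hM.eq, dotProduct_comm]
    exact zr
  have hp : wd (M.mulVec z) (M.mulVec r) = c2 M (wd z r) := wd_mulVec M z r
  set p := M.mulVec z with hpdef
  set q := M.mulVec r with hqdef
  simp only [dotProduct, Fin.sum_univ_four, z0, r0] at zz zr rz rr
  have e0 : p 0 = -(p 1 * z 1 + p 2 * z 2 + p 3 * z 3) := by linear_combination zz
  have f0 : q 0 = -(q 1 * z 1 + q 2 * z 2 + q 3 * z 3) := by linear_combination zr
  have er : p 1 * r 1 + p 2 * r 2 + p 3 * r 3 = 0 := by linear_combination rz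
  have fr : q 1 * r 1 + q 2 * r 2 + q 3 * r 3 = 0 := by linear_combination rr
  -- the cross product
  obtain ⟨w, h1, h2, h3⟩ : ∃ w : k, p 2 * q 3 - p 3 * q 2 = w * r 1 ∧
      p 3 * q 1 - p 1 * q 3 = w * r 2 ∧ p 1 * q 2 - p 2 * q 1 = w * r 3 := by
    have c12 : (p 2 * q 3 - p 3 * q 2) * r 2 = (p 3 * q 1 - p 1 * q 3) * r 1 := by
      linear_combination q 3 * er - p 3 * fr
    have c13 : (p 2 * q 3 - p 3 * q 2) * r 3 = (p 1 * q 2 - p 2 * q 1) * r 1 := by
      linear_combination (-q 2) * er + p 2 * fr
    have c23 : (p 3 * q 1 - p 1 * q 3) * r 3 = (p 1 * q 2 - p 2 * q 1) * r 2 := by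
      linear_combination q 1 * er - p 1 * fr
    by_cases k1 : r 1 = 0
    · by_cases k2 : r 2 = 0
      · have k3 : r 3 ≠ 0 := by
          intro k3
          apply hr
          funext i
          fin_cases i
          · exact r0
          · exact k1
          · exact k2
          · exact k3
        refine ⟨(p 1 * q 2 - p 2 * q 1) / r 3, ?_, ?_, ?_⟩
        · field_simp
          linear_combination c13
        · field_simp
          linear_combination c23
        · field_simp
      · refine ⟨(p 3 * q 1 - p 1 * q 3) / r 2, ?_, ?_, ?_⟩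
        · field_simp
          linear_combination c12
        · field_simp
        · field_simp
          linear_combination -c23
    · refine ⟨(p 2 * q 3 - p 3 * q 2) / r 1, ?_, ?_, ?_⟩
      · field_simp
      · field_simp
        linear_combination -c12
      · field_simp
        linear_combination -c13
  have hrul : wd p q = w • ws z r := by
    funext i
    fin_cases i
    · simp only [wd, ws, Pi.smul_apply, smul_eq_mul, Fin.zero_eta, Matrix.cons_val]
      rw [e0, f0]
      linear_combination z 2 * h3 - z 3 * h2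
    · simp only [wd, ws, Pi.smul_apply, smul_eq_mul, Fin.mk_one, Matrix.cons_val]
      rw [e0, f0]
      linear_combination z 3 * h1 - z 1 * h3
    · simp only [wd, ws, Pi.smul_apply, smul_eq_mul, Fin.reduceFinMk, Matrix.cons_val]
      rw [e0, f0]
      linear_combination z 1 * h2 - z 2 * h1
    · simp only [wd, ws, Pi.smul_apply, smul_eq_mul, Fin.reduceFinMk, Matrix.cons_val, z0, r0]
      linear_combination h3
    · simp only [wd, ws, Pi.smul_apply, smul_eq_mul, Fin.reduceFinMk, Matrix.cons_val, z0, r0]
      linear_combination -h2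
    · simp only [wd, ws, Pi.smul_apply, smul_eq_mul, Fin.reduceFinMk, Matrix.cons_val, z0, r0]
      linear_combination h1
  refine ⟨w, ?_, hrul⟩
  have hc := c2_transpose M (wd z r)
  have hc2 : c2 M (wd z r) = w • st6 (wd z r) := by
    rw [← hp, hrul, ws_eq]
  rw [hM.eq, hc2, st6_smul, st6_st6, c2_smul, hc2, smul_smul] at hc
  have hne : ∃ i, st6 (wd z r) i ≠ 0 := by
    by_contra hcon
    push Not at hcon
    rw [← ws_eq] at hcon
    apply hr
    have g3 := hcon 3
    have g4 := hcon 4
    have g5 := hcon 5
    simp only [ws, Matrix.cons_val, z0, r0] at g3 g4 g5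
    funext i
    fin_cases i
    · exact r0
    · change r 1 = 0
      linear_combination g5
    · change r 2 = 0
      linear_combination -g4
    · change r 3 = 0
      linear_combination g3
  obtain ⟨i, hi⟩ := hne
  have h5 := congrFun hc i
  simp only [Pi.smul_apply, smul_eq_mul] at h5
  have h6 := mul_right_cancel₀ hi h5
  rw [sq]
  exact h6

end

end Vale.Agent.P297.C8
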