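import Vale.Agent.P297.H521.Z3Centre
import Vale.Agent.P297.H288.Z3Pts

/-!
The centres of a chord are generic: unshifted letters.
-/

set_option linter.unusedSectionVars false
set_option linter.style.haveILetI false

open IntermediateField Polynomial

namespace Vale.Agent.P297.H521

open Vale.Agent.P297.Gen Vale.Agent.P297.H288

section

variable {N : Type} [Field N] [Algebra ℂ N]

/-- `h(b, d)` in the unshifted coordinates `B = b - δ`, `D = d - δ`. -/
def hU (P : Par) (δ B D : N) : N := 3 * B * D + 3 * (δ + 1) * (B + D) + 9 * δ ^ 2 + 9 * δ +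
  (algebraMap ℂ N (P.t 2) + algebraMap ℂ N (P.z 2) * δ) +
  (algebraMap ℂ N (P.t 3) + algebraMap ℂ N (P.z 3) * δ)

/-- The member of the pencil in the chart. -/
theorem member_chart (P : Par) (δ B D a τ : N) (hτ : τ ≠ 0) :
    τ * (eB P (B + D + 3 * δ) (a + D) (B + a / τ) τ + δ * eA P (B + D + 3 * δ) (a + D) (B + a / τ) τ) =
      (1 + τ) * (a ^ 3 + τ ^ 2 * (B2 P B + δ * A2 P B) + τ * (B0 P D + δ * A0 P D) -
        τ * (a * hU P δ B D)) := by
  unfold eA eB qQ B0 B2 A0 A2 hU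
  field_simp
  ring

/-- `-1 - δ` is not a root of the cubic. -/
theorem root_ne_neg (P : Par) {δ : N} (hδ : Transcendental ℂ δ) :
    B0 P (-1 - δ) + δ * A0 P (-1 - δ) ≠ 0 := by
  intro h
  apply hδ
  refine ⟨C 2 * X ^ 3 + C (3 + P.z 3) * X ^ 2 + C (P.z 3 + P.t 3 - P.z 1) * X +
    C (P.t 3 - 1 - P.t 1), ?_, ?_⟩
  · intro h0
    have h' := congrArg (fun q => q.coeff 3) h0
    simp only [coeff_add, coeff_C_mul, coeff_X_pow, coeff_X, coeff_C, coeff_zero] at h'
    norm_num at h'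
  · simp only [map_add, map_sub, map_mul, map_pow, aeval_X, aeval_C, map_ofNat, map_one]
    rw [← h]
    unfold B0 A0
    ring

theorem par_mem (F : IntermediateField ℂ N) (z : ℂ) : algebraMap ℂ N z ∈ F := F.algebraMap_mem z

/-- **The centres of a chord are generic**, in the unshifted letters: `w0, w1, w2` the roots of
`B0 + δ A0`, the line through `(B, D, a)` with direction `(ρ, α, -c (α + c ρ))` in the member, the
point on the curve `L(w, n)`. -/
theorem centre_unshifted [IsAlgClosed N] (P : Par) {δ : N} (hδ : Transcendental ℂ δ) {w0 w1 w2 : N}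
    (h01 : w0 ≠ w1) (h02 : w0 ≠ w2) (h12 : w1 ≠ w2)
    (hw : ∀ X : N, B0 P X + δ * A0 P X = (X - w0) * (X - w1) * (X - w2))
    {c : N} (hc : c ∉ cl0 ({δ} : Set N)) {B D a ρ α n0 n1 n2 : N} (hdir : ρ ≠ 0 ∨ α ≠ 0)
    (hline : ∀ y : N, (a + -c * (α + c * ρ) * y) ^ 3 +
      c ^ 6 * (B2 P (B + ρ * y) + δ * A2 P (B + ρ * y)) +
      c ^ 3 * (B0 P (D + α * y) + δ * A0 P (D + α * y)) -
      c ^ 3 * ((a + -c * (α + c * ρ) * y) * hU P δ (B + ρ * y) (D + α * y)) = 0)
    (h1 : n0 + n1 + n2 = 3 * (B + δ + 1))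
    (h2 : w0 * n0 + w1 * n1 + w2 * n2 = -(3 * (δ + 1) * B + 9 * δ ^ 2 + 9 * δ +
      (algebraMap ℂ N (P.t 2) + algebraMap ℂ N (P.z 2) * δ) +
      (algebraMap ℂ N (P.t 3) + algebraMap ℂ N (P.z 3) * δ)))
    (h3 : n0 * n1 * n2 = B2 P B + δ * A2 P B) (h4 : n0 * a = (D - w1) * (D - w2))
    (h5 : a ^ 2 = n2 * c ^ 3 * (D - w2)) : B ∉ cl0 ({δ} : Set N) := by
  have hcl := cl0_closed ({δ} : Set N)
  set F := cl0 ({δ} : Set N) with hF
  haveI : CharZero N := charZero_of_injective_algebraMap (algebraMap ℂ N).injective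
  have hδF : δ ∈ F := subset_cl0 _ rfl
  have hn : ∀ k : ℕ, (k : N) ∈ F := fun k => _root_.natCast_mem F k
  have h3F : (3 : N) ∈ F := by exact_mod_cast hn 3
  have h2F : (2 : N) ∈ F := by exact_mod_cast hn 2
  have hp : ∀ z : ℂ, algebraMap ℂ N z ∈ F := fun z => F.algebraMap_mem z
  have hroot : ∀ w : N, B0 P w + δ * A0 P w = 0 → w ∈ F := by
    intro w hw0
    apply hcl
    let k : Fin 4 → F := ![⟨-(algebraMap ℂ N (P.t 1)) - δ * algebraMap ℂ N (P.z 1),
        sub_mem (neg_mem (hp _)) (mul_mem hδF (hp _))⟩,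
      ⟨-(algebraMap ℂ N (P.t 3)) - δ * algebraMap ℂ N (P.z 3),
        sub_mem (neg_mem (hp _)) (mul_mem hδF (hp _))⟩, ⟨3 * δ, mul_mem h3F hδF⟩, 1]
    refine ⟨C (k 3) * X ^ 3 + C (k 2) * X ^ 2 + C (k 1) * X + C (k 0), ?_, ?_⟩
    · intro h
      have h' := congrArg (fun q => q.coeff 3) h
      simp only [coeff_add, coeff_C_mul, coeff_X_pow, coeff_X, coeff_C, coeff_zero] at h'
      norm_num at h'
      exact one_ne_zero h'
    · simp only [map_add, map_mul, map_pow, aeval_X, aeval_C]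
      change (1 : N) * w ^ 3 + 3 * δ * w ^ 2 +
        (-(algebraMap ℂ N (P.t 3)) - δ * algebraMap ℂ N (P.z 3)) * w +
        (-(algebraMap ℂ N (P.t 1)) - δ * algebraMap ℂ N (P.z 1)) = 0
      rw [← hw0]
      unfold B0 A0
      ring
  have e0 : w0 ∈ F := hroot w0 (by rw [hw]; ring)
  have e1 : w1 ∈ F := hroot w1 (by rw [hw]; ring)
  have e2 : w2 ∈ F := hroot w2 (by rw [hw]; ring)
  intro hB
  refine centre_notMem F hcl
    (m1 := algebraMap ℂ N (P.t 0) + algebraMap ℂ N (P.z 0) * δ -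
      (algebraMap ℂ N (P.t 2) + algebraMap ℂ N (P.z 2) * δ) * δ - 2 * δ ^ 3)
    (m2 := algebraMap ℂ N (P.t 1) + algebraMap ℂ N (P.z 1) * δ -
      (algebraMap ℂ N (P.t 3) + algebraMap ℂ N (P.z 3) * δ) * δ - 2 * δ ^ 3)
    (m3 := algebraMap ℂ N (P.t 2) + algebraMap ℂ N (P.z 2) * δ + 3 * δ ^ 2)
    (m4 := algebraMap ℂ N (P.t 3) + algebraMap ℂ N (P.z 3) * δ + 3 * δ ^ 2)
    (M := (algebraMap ℂ N (P.t 2) + algebraMap ℂ N (P.z 2) * δ + 3 * δ ^ 2) +
      (algebraMap ℂ N (P.t 3) + algebraMap ℂ N (P.z 3) * δ + 3 * δ ^ 2) + 3 * δ)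
    (v0 := w0 + δ) (v1 := w1 + δ) (v2 := w2 + δ) (c := c) (β := B + δ) (d := D + δ) (a := a)
    (ρ := ρ) (α := α) (n0 := n0) (n1 := n1) (n2 := n2) ?_ ?_ ?_
    (add_mem e0 hδF) (add_mem e1 hδF) (add_mem e2 hδF)
    (fun h => h01 (add_right_cancel h)) (fun h => h02 (add_right_cancel h))
    (fun h => h12 (add_right_cancel h)) ?_ ?_ ?_ hc hdir ?_ ?_ ?_ ?_ ?_ ?_ (add_mem hB hδF)
  · exact sub_mem (sub_mem (add_mem (hp _) (mul_mem (hp _) hδF))
      (mul_mem (add_mem (hp _) (mul_mem (hp _) hδF)) hδF)) (mul_mem h2F (pow_mem hδF 3))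
  · exact add_mem (add_mem (hp _) (mul_mem (hp _) hδF)) (mul_mem h3F (pow_mem hδF 2))
  · exact add_mem (add_mem (add_mem (add_mem (hp _) (mul_mem (hp _) hδF))
      (mul_mem h3F (pow_mem hδF 2))) (add_mem (add_mem (hp _) (mul_mem (hp _) hδF))
      (mul_mem h3F (pow_mem hδF 2)))) (mul_mem h3F hδF)
  · intro X
    have h := hw (X - δ)
    unfold B0 A0 at h
    linear_combination h
  · intro h
    have h' := hw w1
    rw [sub_self, mul_zero, zero_mul, eq_sub_of_add_eq h] at h'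
    exact root_ne_neg P hδ h'
  · intro h
    have h' := hw w2
    rw [sub_self, mul_zero, eq_sub_of_add_eq h] at h'
    exact root_ne_neg P hδ h'
  · intro y
    have h := hline y
    unfold B2 A2 B0 A0 hU at h
    linear_combination h
  · linear_combination h1
  · linear_combination h2 + δ * h1
  · unfold B2 A2 at h3
    linear_combination h3
  · linear_combination h4
  · linear_combination h5

/-- The chart coordinate `a` of the point `(s, u, v, τ)`. -/
def ca (δ s u v τ : N) : N := -(τ * (s - u - v - 3 * δ) / (1 + τ))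

/-- **The centres of a chord are generic**, for a chord `x y` of the member of parameter `δ`, on
which `u + c s + c² v` is constant. The point of the chord at `t` has chart coordinates
`D = u - a`, `B = s - 3 δ - D`. -/
theorem centre_chord [IsAlgClosed N] (P : Par) {δ : N} (hδ : Transcendental ℂ δ) {w0 w1 w2 : N}
    (h01 : w0 ≠ w1) (h02 : w0 ≠ w2) (h12 : w1 ≠ w2)
    (hw : ∀ X : N, B0 P X + δ * A0 P X = (X - w0) * (X - w1) * (X - w2))
    {c τ : N} (hc : c ∉ cl0 ({δ} : Set N)) (hτ : c ^ 3 = τ) (h1τ : 1 + τ ≠ 0)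
    {s u v s' u' v' : N} (hdir : s' ≠ 0 ∨ u' ≠ 0 ∨ v' ≠ 0) (hz : u' + c * s' + c ^ 2 * v' = 0)
    (hline : ∀ t : N, eB P (s + s' * t) (u + u' * t) (v + v' * t) τ +
      δ * eA P (s + s' * t) (u + u' * t) (v + v' * t) τ = 0) {B D a n0 n1 n2 : N}
    (ha : a = ca δ s u v τ) (hD : D = u - a) (hB : B = s - 3 * δ - D)
    (h1 : n0 + n1 + n2 = 3 * (B + δ + 1))
    (h2 : w0 * n0 + w1 * n1 + w2 * n2 = -(3 * (δ + 1) * B + 9 * δ ^ 2 + 9 * δ +
      (algebraMap ℂ N (P.t 2) + algebraMap ℂ N (P.z 2) * δ) +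
      (algebraMap ℂ N (P.t 3) + algebraMap ℂ N (P.z 3) * δ)))
    (h3 : n0 * n1 * n2 = B2 P B + δ * A2 P B) (h4 : n0 * a = (D - w1) * (D - w2))
    (h5 : a ^ 2 = n2 * τ * (D - w2)) : B ∉ cl0 ({δ} : Set N) := by
  have c0 : c ≠ 0 := by
    rintro rfl
    exact hc (zero_mem _)
  have τ0 : τ ≠ 0 := by
    rw [← hτ]
    exact pow_ne_zero 3 c0
  have h1c : 1 + c ≠ 0 := by
    intro h0
    apply h1τ
    rw [← hτ]
    linear_combination (1 - c + c ^ 2) * h0
  have h1c' : 1 - c + c ^ 2 ≠ 0 := by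
    intro h0
    apply h1τ
    rw [← hτ]
    linear_combination (1 + c) * h0
  have h1c3 : 1 + c ^ 3 ≠ 0 := by rw [hτ]; exact h1τ
  -- the direction in the chart
  obtain ⟨π, hπ⟩ : ∃ π, π = -(τ * (s' - u' - v') / (1 + τ)) := ⟨_, rfl⟩
  have hπ' : π = -c * ((u' - π) + c * (s' - (u' - π))) := by
    have e1 : π * (1 + τ) = -(τ * (s' - u' - v')) := by
      rw [hπ]
      field_simp
    rw [← hτ] at e1
    apply mul_left_cancel₀ h1c
    linear_combination e1 + c * hz
  have hdir' : (s' - (u' - π)) ≠ 0 ∨ (u' - π) ≠ 0 := by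
    by_contra hcon
    push Not at hcon
    obtain ⟨q1, q2⟩ := hcon
    have q3 : π = 0 := by rw [hπ', q1, q2]; ring
    rw [q3] at q1 q2
    have q4 : u' = 0 := by linear_combination q2
    have q5 : s' = 0 := by linear_combination q1 + q2
    have q6 : v' = 0 := by
      have : c ^ 2 * v' = 0 := by linear_combination hz - q4 - c * q5
      rcases mul_eq_zero.1 this with h | h
      · exact absurd h (pow_ne_zero 2 c0)
      · exact h
    rcases hdir with h | h | h
    · exact h q5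
    · exact h q4
    · exact h q6
  refine centre_unshifted P hδ h01 h02 h12 hw hc hdir' ?_ h1 h2 h3 h4 (by rw [hτ]; exact h5)
  intro y
  rw [← hπ', show c ^ 6 = τ ^ 2 by rw [← hτ]; ring, hτ]
  have e1 := member_chart P δ (B + (s' - (u' - π)) * y) (D + (u' - π) * y) (a + π * y) τ τ0
  have e2 := hline y
  have f1 : (B + (s' - (u' - π)) * y) + (D + (u' - π) * y) + 3 * δ = s + s' * y := by
    rw [hB]; ring
  have f2 : (a + π * y) + (D + (u' - π) * y) = u + u' * y := by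
    rw [hD]; ring
  have f3 : (B + (s' - (u' - π)) * y) + (a + π * y) / τ = v + v' * y := by
    rw [hB, hD, ha, hπ]
    unfold ca
    field_simp
    ring
  rw [f1, f2, f3, e2, mul_zero] at e1
  rcases mul_eq_zero.1 e1.symm with h | h
  · exact absurd h h1τ
  · exact h

end

end Vale.Agent.P297.H521
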